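import Vale.Agent.P176.Reps

/-!
P176: the finite-dimensional algebra `AA`, its column modules and the modules `FMod N`.
-/

namespace Vale.Agent.P176

open Matrix TrivSqZeroExt MulOpposite

noncomputable section

/-- The coefficient ring. -/
abbrev TT : Type := TrivSqZeroExt UG Wq

/-- The level of a vertex. -/
def lev (t : Fin 5) : ℤ := (t : ℕ)

/-- An entry at position `(t, s)`. -/
def Ok (t : ℤ) (s : ℤ) (x : TT) : Prop := x.fst ∈ FI (t - s) ∧ x.snd ∈ ZI (t + 1 - s)

lemma ok_zero (t s : ℤ) : Ok t s 0 := ⟨zero_mem _, zero_mem _⟩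

lemma ok_add {t s : ℤ} {x y : TT} (hx : Ok t s x) (hy : Ok t s y) : Ok t s (x + y) :=
  ⟨add_mem hx.1 hy.1, add_mem hx.2 hy.2⟩

lemma ok_smul {t s : ℤ} (r : ℚ) {x : TT} (hx : Ok t s x) : Ok t s (r • x) :=
  ⟨Submodule.smul_mem _ r hx.1, Submodule.smul_mem _ r hx.2⟩

lemma ok_sum {ι : Type*} {t s : ℤ} (S : Finset ι) (f : ι → TT) (h : ∀ i ∈ S, Ok t s (f i)) :
    Ok t s (∑ i ∈ S, f i) :=
  Finset.sum_induction f (Ok t s) (fun _ _ hx hy => ok_add hx hy) (ok_zero t s) h

lemma ok_mul {t s r : ℤ} {x y : TT} (hx : Ok t s x) (hy : Ok s r y) : Ok t r (x * y) := by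
  refine ⟨?_, ?_⟩
  · rw [fst_mul, show t - r = (t - s) + (s - r) by ring]
    exact FI_mul_mem hx.1 hy.1
  · rw [snd_mul, show t + 1 - r = (t - s) + (s + 1 - r) by ring]
    refine add_mem (smul_mem_ZI hx.1 hy.2) ?_
    rw [show (t - s) + (s + 1 - r) = (t + 1 - s) + (s - r) by ring]
    exact op_smul_mem_ZI hx.2 hy.1

lemma ok_one (t : ℤ) : Ok t t 1 := ⟨by simpa using one_mem_FI (le_refl 0), by simp⟩

lemma ok_inl {t s : ℤ} {u : UG} (hu : u ∈ FI (t - s)) : Ok t s (inl u) :=
  ⟨by simpa using hu, by simp⟩

/-- The algebra. -/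
def AA : Subalgebra ℚ (Matrix (Fin 5) (Fin 5) TT) where
  carrier := {x | ∀ t s, Ok (lev t) (lev s) (x t s)}
  mul_mem' {x y} hx hy t r := by
    rw [Matrix.mul_apply]
    exact ok_sum _ _ fun s _ => ok_mul (hx t s) (hy s r)
  add_mem' {x y} hx hy t s := ok_add (hx t s) (hy t s)
  algebraMap_mem' r t s := by
    rw [Matrix.algebraMap_matrix_apply]
    split_ifs with h
    · subst h
      rw [Algebra.algebraMap_eq_smul_one]
      exact ok_smul r (ok_one _)
    · exact ok_zero _ _

/-- The algebra as a type. -/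
def AR : Type := AA

instance instRingAR : Ring AR := inferInstanceAs (Ring AA)

instance instAlgebraAR : Algebra ℚ AR := inferInstanceAs (Algebra ℚ AA)

/-- The matrix of an element. -/
def ent (a : AR) : Matrix (Fin 5) (Fin 5) TT := (show AA from a).1

lemma ent_ok (a : AR) (t s : Fin 5) : Ok (lev t) (lev s) (ent a t s) :=
  (show AA from a).2 t s

/-- The inclusion into matrices. -/
def entHom : AR →ₐ[ℚ] Matrix (Fin 5) (Fin 5) TT := AA.val

lemma entHom_apply (a : AR) : entHom a = ent a := rfl

lemma ent_injective : Function.Injective ent := Subtype.val_injective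

/-- The submodule of admissible entries. -/
def entryMod (t s : ℤ) : Submodule ℚ TT where
  carrier := {x | Ok t s x}
  zero_mem' := ok_zero t s
  add_mem' hx hy := ok_add hx hy
  smul_mem' r _ hx := ok_smul r hx

instance entryMod_finite (t s : ℤ) : Module.Finite ℚ (entryMod t s) := by
  haveI : Module.Finite ℚ (FI (t - s)) := Module.Finite.iff_fg.2 (FI_fg _)
  haveI : Module.Finite ℚ (ZI (t + 1 - s)) := Module.Finite.iff_fg.2 (ZI_fg _)
  let e : (FI (t - s) × ZI (t + 1 - s)) →ₗ[ℚ] entryMod t s :=
    { toFun := fun p => ⟨inl p.1.1 + inr p.2.1, by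
        constructor
        · simp [p.1.2]
        · simp [p.2.2]⟩
      map_add' := fun p q => by
        apply Subtype.ext; apply TrivSqZeroExt.ext <;> simp
      map_smul' := fun r p => by
        apply Subtype.ext; apply TrivSqZeroExt.ext <;> simp }
  refine Module.Finite.of_surjective e fun x => ⟨(⟨x.1.fst, x.2.1⟩, ⟨x.1.snd, x.2.2⟩), ?_⟩
  exact Subtype.ext (TrivSqZeroExt.inl_fst_add_inr_snd_eq _)

lemma AA_finite : Module.Finite ℚ AA := by
  let e : AA →ₗ[ℚ] ((t : Fin 5) → (s : Fin 5) → entryMod (lev t) (lev s)) :=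
    { toFun := fun x t s => ⟨x.1 t s, x.2 t s⟩
      map_add' := fun x y => rfl
      map_smul' := fun r x => rfl }
  exact Module.Finite.of_injective e fun x y h => Subtype.ext (funext fun t => funext fun s =>
    congrArg Subtype.val (congrFun (congrFun h t) s))

instance AR_finite : Module.Finite ℚ AR := AA_finite

/-- Vectors over the coefficient ring, with the action of `AR` by matrix-vector product. -/
def Vec : Type := Fin 5 → TT

instance : AddCommGroup Vec := inferInstanceAs (AddCommGroup (Fin 5 → TT))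

instance : Module AR Vec where
  smul a f := ((ent a) *ᵥ (f : Fin 5 → TT) : Fin 5 → TT)
  one_smul f := Matrix.one_mulVec (f : Fin 5 → TT)
  mul_smul a b f := (Matrix.mulVec_mulVec (f : Fin 5 → TT) (ent a) (ent b)).symm
  smul_zero a := Matrix.mulVec_zero (ent a)
  smul_add a f g := Matrix.mulVec_add (ent a) f g
  add_smul a b f := Matrix.add_mulVec (ent a) (ent b) f
  zero_smul f := Matrix.zero_mulVec (f : Fin 5 → TT)

lemma smul_vec_apply (a : AR) (f : Vec) (t : Fin 5) :
    (a • f) t = ∑ s, (ent a) t s * f s := rfl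

/-- The `k`-th column module. -/
def Col (k : Fin 5) : Submodule AR Vec where
  carrier := {f | ∀ t, Ok (lev t) (lev k) (f t)}
  zero_mem' t := ok_zero _ _
  add_mem' hf hg t := ok_add (hf t) (hg t)
  smul_mem' a f hf t := by
    rw [smul_vec_apply]
    exact ok_sum _ _ fun s _ => ok_mul (ent_ok a t s) (hf s)

instance instModuleCol (k : Fin 5) : Module AR (Col k) := (Col k).module

/-- The `k`-th column of an element. -/
def colOf (k : Fin 5) : AR →ₗ[AR] Col k where
  toFun x := ⟨fun t => ent x t k, fun t => ent_ok x t k⟩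
  map_add' x y := rfl
  map_smul' a x := rfl

/-- A column as an element. -/
def colIn (k : Fin 5) : Col k →ₗ[AR] AR where
  toFun f := ⟨fun t s => if s = k then f.1 t else 0, fun t s => by
    show Ok (lev t) (lev s) (if s = k then f.1 t else 0)
    split_ifs with h
    · subst h; exact f.2 t
    · exact ok_zero _ _⟩
  map_add' f g := by
    apply ent_injective
    funext t s
    show (if s = k then f.1 t + g.1 t else 0)
      = (if s = k then f.1 t else 0) + (if s = k then g.1 t else 0)
    split_ifs <;> simp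
  map_smul' a f := by
    apply ent_injective
    funext t s
    show (if s = k then (a • f.1) t else 0) = ∑ r, (ent a) t r * (if s = k then f.1 r else 0)
    split_ifs <;> simp [smul_vec_apply]

lemma colOf_colIn (k : Fin 5) : (colOf k).comp (colIn k) = LinearMap.id := by
  refine LinearMap.ext fun f => Subtype.ext (funext fun t => ?_)
  show (if k = k then f.1 t else 0) = f.1 t
  simp

/-- The projective modules of the resolution. -/
abbrev PP (k : Fin 5) (c N : ℕ) : Type := Fin c → Fin N → Col k

instance instModulePPRow (k : Fin 5) (N : ℕ) : Module AR (Fin N → Col k) :=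
  Pi.module (Fin N) (fun _ => Col k) AR

instance instModulePP (k : Fin 5) (c N : ℕ) : Module AR (PP k c N) :=
  Pi.module (Fin c) (fun _ => Fin N → Col k) AR

instance PP_projective (k : Fin 5) (c N : ℕ) : Module.Projective AR (PP k c N) := by
  haveI : Module.Projective AR (Fin c × Fin N → AR) := inferInstance
  refine Module.Projective.of_split (M := Fin c × Fin N → AR)
    (LinearMap.pi fun p => (colIn k).comp
      ((LinearMap.proj (φ := fun _ : Fin N => Col k) p.2).comp
        (LinearMap.proj (φ := fun _ : Fin c => Fin N → Col k) p.1)))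
    (LinearMap.pi fun i => LinearMap.pi fun j => (colOf k).comp (LinearMap.proj (i, j))) ?_
  refine LinearMap.ext fun x => funext fun i => funext fun j => ?_
  exact LinearMap.congr_fun (colOf_colIn k) (x i j)

instance PP_finite (k : Fin 5) (c N : ℕ) : Module.Finite AR (PP k c N) := by
  haveI : Module.Finite AR (Col k) :=
    Module.Finite.of_surjective (colOf k) fun f => ⟨colIn k f, LinearMap.congr_fun (colOf_colIn k) f⟩
  infer_instance

variable {k k' : Fin 5} {c c' N : ℕ}

/-- Matrices of matrices with all entries in filtration degree one. -/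
def Lin (K : Matrix (Fin c) (Fin c') (Matrix (Fin N) (Fin N) UG)) : Prop :=
  ∀ I J p q, K I J p q ∈ FI 1

/-- Right multiplication on columns by a matrix. -/
def dPfun (K : Matrix (Fin c) (Fin c') (Matrix (Fin N) (Fin N) UG)) (x : PP k c N)
    (J : Fin c') (q : Fin N) (t : Fin 5) : TT :=
  ∑ I, ∑ p, (x I p).1 t * inl (K I J p q)

/-- The differential. -/
def dP (hk : lev k = lev k' + 1) (K : Matrix (Fin c) (Fin c') (Matrix (Fin N) (Fin N) UG))
    (hK : Lin K) : PP k c N →ₗ[AR] PP k' c' N where
  toFun x J q := ⟨dPfun K x J q, fun t => ok_sum _ _ fun I _ => ok_sum _ _ fun p _ =>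
    ok_mul ((x I p).2 t) (ok_inl (by rw [hk, add_sub_cancel_left]; exact hK I J p q))⟩
  map_add' x y := by
    funext J q; apply Subtype.ext; funext t
    show dPfun K (x + y) J q t = dPfun K x J q t + dPfun K y J q t
    simp only [dPfun, ← Finset.sum_add_distrib, ← add_mul]
    rfl
  map_smul' a x := by
    funext J q; apply Subtype.ext; funext t
    show dPfun K (a • x) J q t = ∑ s, (ent a) t s * dPfun K x J q s
    simp only [dPfun, Finset.mul_sum]
    conv_rhs => rw [Finset.sum_comm]
    refine Finset.sum_congr rfl fun I _ => ?_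
    conv_rhs => rw [Finset.sum_comm]
    refine Finset.sum_congr rfl fun p _ => ?_
    show (∑ s, (ent a) t s * (x I p).1 s) * inl (K I J p q) = _
    rw [Finset.sum_mul]
    exact Finset.sum_congr rfl fun s _ => mul_assoc _ _ _

/-- The first component as a matrix. -/
def fstMat : AR →ₐ[ℚ] Matrix (Fin 5) (Fin 5) UG :=
  ((fstHom ℚ UG Wq).mapMatrix).comp entHom

lemma fstMat_apply (a : AR) (t s : Fin 5) : fstMat a t s = (ent a t s).fst := rfl

/-- The modules `F(V)`. -/
def FMod (N : ℕ) : Type := Fin 5 → Fin N → ℚ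

instance (N : ℕ) : AddCommGroup (FMod N) := inferInstanceAs (AddCommGroup (Fin 5 → Fin N → ℚ))

instance (N : ℕ) : Module ℚ (FMod N) := inferInstanceAs (Module ℚ (Fin 5 → Fin N → ℚ))

lemma actV_zero {N : ℕ} (f : Fin N → ℚ) : actV N 0 f = 0 := by simp [actV]

lemma actV_sum {N : ℕ} {ι : Type*} (S : Finset ι) (u : ι → UG) (f : Fin N → ℚ) :
    actV N (∑ i ∈ S, u i) f = ∑ i ∈ S, actV N (u i) f := by
  simp [actV, Matrix.sum_mulVec]

lemma actV_sum_vec {N : ℕ} {ι : Type*} (S : Finset ι) (u : UG) (f : ι → Fin N → ℚ) :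
    actV N u (∑ i ∈ S, f i) = ∑ i ∈ S, actV N u (f i) := by
  simp [actV, Matrix.mulVec_sum]

instance (N : ℕ) : Module AR (FMod N) where
  smul a v := fun t => ∑ s, actV N (fstMat a t s) (v s)
  one_smul v := by
    funext t
    show ∑ s, actV N (fstMat 1 t s) (v s) = v t
    rw [map_one, Finset.sum_eq_single t]
    · simp [actV_one]
    · intro s _ hs; simp [Matrix.one_apply_ne hs.symm, actV_zero]
    · simp
  mul_smul a b v := by
    funext t
    show ∑ s, actV N (fstMat (a * b) t s) (v s)
      = ∑ r, actV N (fstMat a t r) (∑ s, actV N (fstMat b r s) (v s))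
    simp only [map_mul, Matrix.mul_apply, actV_sum, actV_mul, actV_sum_vec]
    exact Finset.sum_comm
  smul_zero a := by
    funext t
    show ∑ s, actV N (fstMat a t s) (0 : Fin N → ℚ) = 0
    simp [actV]
  smul_add a v w := by
    funext t
    show ∑ s, actV N (fstMat a t s) (v s + w s) = _
    simp only [actV_add_vec, Finset.sum_add_distrib]
    rfl
  add_smul a b v := by
    funext t
    show ∑ s, actV N (fstMat (a + b) t s) (v s) = _
    simp only [map_add, Matrix.add_apply, actV_add, Finset.sum_add_distrib]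
    rfl
  zero_smul v := by
    funext t
    show ∑ s, actV N (fstMat 0 t s) (v s) = _
    simp [actV_zero]
    rfl

lemma smul_FMod_apply {N : ℕ} (a : AR) (v : FMod N) (t : Fin 5) :
    (a • v) t = ∑ s, actV N (fstMat a t s) (v s) := rfl

instance (N : ℕ) : IsScalarTower ℚ AR (FMod N) where
  smul_assoc r a v := by
    funext t
    show ∑ s, actV N (fstMat (r • a) t s) (v s) = r • ∑ s, actV N (fstMat a t s) (v s)
    simp [actV, Matrix.smul_mulVec, Finset.smul_sum]

instance (N : ℕ) : Module.Finite ℚ (FMod N) :=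
  inferInstanceAs (Module.Finite ℚ (Fin 5 → Fin N → ℚ))

instance FMod_finite (N : ℕ) : Module.Finite AR (FMod N) :=
  Module.Finite.of_restrictScalars_finite ℚ AR (FMod N)

end

end Vale.Agent.P176
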