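import Vale.Agent.P176.Env

/-!
P176: the operator `Dm` on pairs, its left action `psi`, and the twisted Chevalley-Eilenberg
matrices with the differential `dC` on tuples.
-/

namespace Vale.Agent.P176

open Matrix

noncomputable section

/-- The operator `D`: `(D u) i = ∑ j, E j i * u j + u i`. -/
def Dm (u : Fin 2 → UG) : Fin 2 → UG := fun i => (∑ j, gE j i * u j) + u i

/-- The matrix of the representation `standard - determinant` at a generator. -/
def rho2 {R : Type*} [Ring R] (a b : Fin 2) : Matrix (Fin 2) (Fin 2) R :=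
  if a = 0 ∧ b = 0 then !![0, 0; 0, -1]
  else if a = 1 ∧ b = 1 then !![-1, 0; 0, 0]
  else if a = 0 then !![0, 1; 0, 0]
  else !![0, 0; 1, 0]

/-- The shifted action of a generator on pairs. -/
def psiGen (a b : Fin 2) : Matrix (Fin 2) (Fin 2) UG :=
  Matrix.diagonal (fun _ => gE a b) + rho2 a b

section CE

variable {R : Type*} [Ring R] (g : Fin 2 → Fin 2 → R)

/-- First Chevalley-Eilenberg matrix. -/
def ce1 : Matrix (Fin 4) (Fin 1) R :=
  !![g 0 0; g 0 1; g 1 0; g 1 1]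

/-- Second Chevalley-Eilenberg matrix. -/
def ce2 : Matrix (Fin 6) (Fin 4) R :=
  !![-g 0 1, g 0 0 - 1, 0, 0;
     -g 1 0, 0, g 0 0 + 1, 0;
     -g 1 1, 0, 0, g 0 0;
     -1, -g 1 0, g 0 1, 1;
     0, -g 1 1 - 1, 0, g 0 1;
     0, 0, -g 1 1 + 1, g 1 0]

/-- Third Chevalley-Eilenberg matrix. -/
def ce3 : Matrix (Fin 4) (Fin 6) R :=
  !![g 1 0, -g 0 1, -1, g 0 0, 0, 0;
     g 1 1 + 1, 0, -g 0 1, 0, g 0 0 - 1, 0;
     0, g 1 1 - 1, -g 1 0, 0, 0, g 0 0 + 1;
     0, 0, -1, g 1 1, -g 1 0, g 0 1]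

/-- Fourth Chevalley-Eilenberg matrix. -/
def ce4 : Matrix (Fin 1) (Fin 4) R :=
  !![-g 1 1, g 1 0, -g 0 1, g 0 0]

end CE

variable {N : ℕ} (ρ : Fin 2 → Fin 2 → Matrix (Fin N) (Fin N) ℚ)

/-- The twisted generators `E - ρᵀ`. -/
def gT (a b : Fin 2) : Matrix (Fin N) (Fin N) UG :=
  Matrix.diagonal (fun _ => gE a b) - (ρ a b)ᵀ.map (algebraMap ℚ UG)

variable {i j : ℕ}

/-- Right multiplication of a tuple by a matrix of matrices. -/
def dC (K : Matrix (Fin i) (Fin j) (Matrix (Fin N) (Fin N) UG))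
    (x : Fin i → Fin N → UG) : Fin j → Fin N → UG :=
  fun J => ∑ I, vecMul (x I) (K I J)

/-- All entries lie in a piece of the filtration. -/
def InC (z : ℤ) (x : Fin i → Fin N → UG) : Prop := ∀ I p, x I p ∈ FI z

/-- The augmentation of the twisted complex. -/
def epsC (hρ : IsRep ρ) (x : Fin 1 → Fin N → UG) : Fin N → ℚ :=
  fun q => ∑ p, liftRep ρ hρ (x 0 p) q p

end

end Vale.Agent.P176
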