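import Mathlib

/-!
P176: the enveloping algebra of `gl₂` by generators and relations, its filtration by length,
and lifting of representations.
-/

namespace Vale.Agent.P176

open FreeAlgebra

/-- Index of a generator. -/
abbrev Gix : Type := Fin 2 × Fin 2

/-- Kronecker delta with values in a ring. -/
def kd {R : Type*} [Zero R] [One R] (i j : Fin 2) : R := if i = j then 1 else 0

/-- The commutation relations of `gl₂`. -/
inductive Rel : FreeAlgebra ℚ Gix → FreeAlgebra ℚ Gix → Prop
  | comm (a b c d : Fin 2) : Rel (ι ℚ (a, b) * ι ℚ (c, d) - ι ℚ (c, d) * ι ℚ (a, b))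
      ((if b = c then ι ℚ (a, d) else 0) - (if a = d then ι ℚ (c, b) else 0))

noncomputable section

/-- The enveloping algebra of `gl₂`. -/
def UG : Type := RingQuot Rel

instance instRingUG : Ring UG := inferInstanceAs (Ring (RingQuot Rel))

instance instAlgebraUG : Algebra ℚ UG := inferInstanceAs (Algebra ℚ (RingQuot Rel))

/-- The quotient map. -/
def toUG : FreeAlgebra ℚ Gix →ₐ[ℚ] UG := RingQuot.mkAlgHom ℚ Rel

/-- The generators. -/
def gE (a b : Fin 2) : UG := toUG (ι ℚ (a, b))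

lemma gE_comm (a b c d : Fin 2) :
    gE a b * gE c d - gE c d * gE a b
      = (if b = c then gE a d else 0) - (if a = d then gE c b else 0) := by
  have h : toUG _ = toUG _ := RingQuot.mkAlgHom_rel ℚ (Rel.comm a b c d)
  simp only [map_sub, map_mul] at h
  rw [gE, gE, h]
  split_ifs <;> simp [gE]

/-- A family of elements satisfying the relations of `gl₂`. -/
def IsRep {R : Type*} [Ring R] (f : Fin 2 → Fin 2 → R) : Prop :=
  ∀ a b c d, f a b * f c d - f c d * f a b
    = (if b = c then f a d else 0) - (if a = d then f c b else 0)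

lemma isRep_gE : IsRep gE := gE_comm

variable {R : Type*} [Ring R] [Algebra ℚ R]

/-- The representation attached to such a family. -/
def liftRep (f : Fin 2 → Fin 2 → R) (h : IsRep f) : UG →ₐ[ℚ] R :=
  RingQuot.liftAlgHom ℚ ⟨FreeAlgebra.lift ℚ (fun p => f p.1 p.2), by
    rintro x y ⟨a, b, c, d⟩
    simp only [map_sub, map_mul, FreeAlgebra.lift_ι_apply, h a b c d]
    split_ifs <;> simp⟩

@[simp] lemma liftRep_gE (f : Fin 2 → Fin 2 → R) (h : IsRep f) (a b : Fin 2) :
    liftRep f h (gE a b) = f a b := by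
  show RingQuot.liftAlgHom ℚ _ (RingQuot.mkAlgHom ℚ Rel (ι ℚ (a, b))) = f a b
  rw [RingQuot.liftAlgHom_mkAlgHom_apply, FreeAlgebra.lift_ι_apply]

lemma adjoin_gE : Algebra.adjoin ℚ (Set.range fun p : Gix => gE p.1 p.2) = ⊤ := by
  have h : (Set.range fun p : Gix => gE p.1 p.2)
      = toUG '' Set.range (ι ℚ) := by
    rw [← Set.range_comp]; rfl
  rw [h, Algebra.adjoin_image, FreeAlgebra.adjoin_range_ι, Algebra.map_top,
    AlgHom.range_eq_top]
  exact RingQuot.mkAlgHom_surjective ℚ Rel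

lemma gE_induction {p : UG → Prop} (hc : ∀ r : ℚ, p (algebraMap ℚ UG r))
    (hg : ∀ a b, p (gE a b)) (hadd : ∀ x y, p x → p y → p (x + y))
    (hmul : ∀ x y, p x → p y → p (x * y)) (x : UG) : p x := by
  have hx : x ∈ Algebra.adjoin ℚ (Set.range fun p : Gix => gE p.1 p.2) := by
    rw [adjoin_gE]; trivial
  induction hx using Algebra.adjoin_induction with
  | mem x hx => obtain ⟨⟨a, b⟩, rfl⟩ := hx; exact hg a b
  | algebraMap r => exact hc r
  | add x y _ _ hx hy => exact hadd x y hx hy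
  | mul x y _ _ hx hy => exact hmul x y hx hy

/-- The span of the generators and of `1`. -/
def F1 : Submodule ℚ UG :=
  Submodule.span ℚ (insert (1 : UG) (Set.range fun p : Gix => gE p.1 p.2))

/-- The filtration by length. -/
def Fn (m : ℕ) : Submodule ℚ UG := F1 ^ m

/-- The filtration indexed by the integers, zero in negative degree. -/
def FI (z : ℤ) : Submodule ℚ UG := if 0 ≤ z then Fn z.toNat else ⊥

lemma one_mem_F1 : (1 : UG) ∈ F1 := Submodule.subset_span (Set.mem_insert _ _)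

lemma gE_mem_F1 (a b : Fin 2) : gE a b ∈ F1 :=
  Submodule.subset_span (Set.mem_insert_of_mem _ ⟨(a, b), rfl⟩)

lemma Fn_zero : Fn 0 = 1 := pow_zero _

lemma one_mem_Fn_zero : (1 : UG) ∈ Fn 0 := by
  rw [Fn_zero]; exact Submodule.one_le.1 le_rfl

lemma Fn_succ (m : ℕ) : Fn (m + 1) = Fn m * F1 := pow_succ _ _

lemma Fn_succ' (m : ℕ) : Fn (m + 1) = F1 * Fn m := pow_succ' _ _

lemma Fn_le_succ (m : ℕ) : Fn m ≤ Fn (m + 1) := by
  intro x hx
  rw [Fn_succ]
  simpa using Submodule.mul_mem_mul hx one_mem_F1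

lemma Fn_mono {m n : ℕ} (h : m ≤ n) : Fn m ≤ Fn n := monotone_nat_of_le_succ Fn_le_succ h

lemma Fn_mul_mem {i j : ℕ} {x y : UG} (hx : x ∈ Fn i) (hy : y ∈ Fn j) :
    x * y ∈ Fn (i + j) := by
  rw [Fn, pow_add]; exact Submodule.mul_mem_mul hx hy

lemma FI_nat (m : ℕ) : FI (m : ℤ) = Fn m := by simp [FI]

lemma FI_neg {z : ℤ} (h : z < 0) : FI z = ⊥ := by simp [FI, not_le.2 h]

lemma FI_mono {z w : ℤ} (h : z ≤ w) : FI z ≤ FI w := by
  unfold FI
  split_ifs with h1 h2
  · exact Fn_mono (by omega)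
  · omega
  · exact bot_le
  · exact le_rfl

lemma FI_mul_mem {i j : ℤ} {x y : UG} (hx : x ∈ FI i) (hy : y ∈ FI j) :
    x * y ∈ FI (i + j) := by
  unfold FI at *
  by_cases hi : 0 ≤ i
  · by_cases hj : 0 ≤ j
    · rw [if_pos hi] at hx; rw [if_pos hj] at hy
      rw [if_pos (by omega : 0 ≤ i + j), Int.toNat_add hi hj]
      exact Fn_mul_mem hx hy
    · rw [if_neg hj, Submodule.mem_bot] at hy; simp [hy]
  · rw [if_neg hi, Submodule.mem_bot] at hx; simp [hx]

lemma one_mem_FI {z : ℤ} (h : 0 ≤ z) : (1 : UG) ∈ FI z :=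
  FI_mono h (by rw [← Nat.cast_zero, FI_nat]; exact one_mem_Fn_zero)

lemma gE_mem_FI {z : ℤ} (h : 1 ≤ z) (a b : Fin 2) : gE a b ∈ FI z :=
  FI_mono h (by
    rw [show (1 : ℤ) = ((1 : ℕ) : ℤ) from rfl, FI_nat, Fn, pow_one]; exact gE_mem_F1 a b)

lemma Fn_fg (m : ℕ) : (Fn m).FG := by
  refine Submodule.FG.pow ?_ m
  exact Submodule.fg_span ((Set.finite_range _).insert _)

lemma FI_fg (z : ℤ) : (FI z).FG := by
  unfold FI
  split_ifs
  · exact Fn_fg _
  · exact Submodule.fg_bot

/-- Induction along the filtration by left multiplication with generators. -/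
lemma Fn_induction {p : ℕ → UG → Prop} (h0 : ∀ r : ℚ, p 0 (r • 1))
    (hadd : ∀ m x y, p m x → p m y → p m (x + y))
    (hz : ∀ m, p m 0)
    (hsm : ∀ m (r : ℚ) x, p m x → p m (r • x))
    (hone : ∀ m x, x ∈ Fn m → p m x → p (m + 1) x)
    (hgen : ∀ m a b x, x ∈ Fn m → p m x → p (m + 1) (gE a b * x))
    : ∀ m x, x ∈ Fn m → p m x := by
  intro m
  induction m with
  | zero =>
    intro x hx
    rw [Fn_zero, Submodule.one_eq_span, Submodule.mem_span_singleton] at hx
    obtain ⟨r, rfl⟩ := hx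
    exact h0 r
  | succ m ih =>
    intro x hx
    rw [Fn_succ'] at hx
    refine Submodule.mul_induction_on hx ?_ (hadd _)
    intro u hu v hv
    induction hu using Submodule.span_induction with
    | mem u hu =>
      rcases hu with rfl | ⟨⟨a, b⟩, rfl⟩
      · simpa using hone m v hv (ih v hv)
      · exact hgen m a b v hv (ih v hv)
    | zero => simpa using hz _
    | add u u' _ _ hu hu' => rw [add_mul]; exact hadd _ _ _ hu hu'
    | smul r u _ hu => rw [smul_mul_assoc]; exact hsm _ r _ hu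

lemma gE_comm_mem {m : ℕ} {x : UG} (hx : x ∈ Fn m) (a b : Fin 2) :
    gE a b * x - x * gE a b ∈ Fn m := by
  revert a b
  refine Fn_induction (p := fun m x => ∀ a b, gE a b * x - x * gE a b ∈ Fn m)
    ?_ ?_ ?_ ?_ ?_ ?_ m x hx
  · intro r a b; simp
  · intro m x y hx hy a b
    rw [mul_add, add_mul, add_sub_add_comm]; exact add_mem (hx a b) (hy a b)
  · intro m a b; simp
  · intro m r x hx a b
    rw [mul_smul_comm, smul_mul_assoc]
    have h := Submodule.smul_mem _ r (hx a b)
    rwa [smul_sub] at h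
  · intro m x _ hx a b; exact Fn_le_succ m (hx a b)
  · intro m c d x hxm hx a b
    have key : gE a b * (gE c d * x) - gE c d * x * gE a b
        = (gE a b * gE c d - gE c d * gE a b) * x + gE c d * (gE a b * x - x * gE a b) := by
      rw [sub_mul, mul_sub, mul_assoc, mul_assoc, mul_assoc]
      abel
    rw [key, gE_comm]
    refine add_mem ?_ ?_
    · rw [Fn_succ']
      refine Submodule.mul_mem_mul (sub_mem ?_ ?_) hxm <;> split_ifs <;>
        first | exact gE_mem_F1 _ _ | exact zero_mem _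
    · rw [Fn_succ']; exact Submodule.mul_mem_mul (gE_mem_F1 _ _) (hx a b)

end

end Vale.Agent.P176
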