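import Vale.Agent.P176.Symbol

/-!
P176: exactness of the Koszul complex of polynomials in four variables, degree by degree,
through the Euler homotopy.
-/

namespace Vale.Agent.P176

open MvPolynomial Matrix

noncomputable section

/-- First Koszul matrix. -/
def kap1 : Matrix (Fin 4) (Fin 1) SP :=
  !![X (0, 0); X (0, 1); X (1, 0); X (1, 1)]

/-- Second Koszul matrix. -/
def kap2 : Matrix (Fin 6) (Fin 4) SP :=
  !![-X (0, 1), X (0, 0), 0, 0;
     -X (1, 0), 0, X (0, 0), 0;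
     -X (1, 1), 0, 0, X (0, 0);
     0, -X (1, 0), X (0, 1), 0;
     0, -X (1, 1), 0, X (0, 1);
     0, 0, -X (1, 1), X (1, 0)]

/-- Third Koszul matrix. -/
def kap3 : Matrix (Fin 4) (Fin 6) SP :=
  !![X (1, 0), -X (0, 1), 0, X (0, 0), 0, 0;
     X (1, 1), 0, -X (0, 1), 0, X (0, 0), 0;
     0, X (1, 1), -X (1, 0), 0, 0, X (0, 0);
     0, 0, 0, X (1, 1), -X (1, 0), X (0, 1)]

/-- Fourth Koszul matrix. -/
def kap4 : Matrix (Fin 1) (Fin 4) SP :=
  !![-X (1, 1), X (1, 0), -X (0, 1), X (0, 0)]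

/-- Partial derivative. -/
abbrev pd (a b : Fin 2) : Derivation ℚ SP SP := pderiv (a, b)

lemma euler4 {m : ℕ} {f : SP} (h : f.IsHomogeneous m) :
    X (0, 0) * pd 0 0 f + X (0, 1) * pd 0 1 f + X (1, 0) * pd 1 0 f + X (1, 1) * pd 1 1 f
      = (m : SP) * f := by
  have e := h.sum_X_mul_pderiv
  simp only [Fintype.sum_prod_type, Fin.sum_univ_two, nsmul_eq_mul] at e
  linear_combination e

lemma C_inv_mul {n : ℕ} (hn : n ≠ 0) : C ((n : ℚ)⁻¹) * (n : SP) = 1 := by
  rw [← map_natCast (C : ℚ →+* SP) n, ← map_mul, inv_mul_cancel₀ (by exact_mod_cast hn), map_one]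

lemma pd_hom {m : ℕ} {f : SP} (h : f.IsHomogeneous m) (a b : Fin 2) :
    (pd a b f).IsHomogeneous (m - 1) := h.pderiv

lemma pd_zero_deg {f : SP} (h : f.IsHomogeneous 0) (a b : Fin 2) : pd a b f = 0 := by
  rw [h.totalDegree_le.trans_eq rfl |> Nat.le_zero.mp |> totalDegree_eq_zero_iff_eq_C.mp]
  exact pderiv_C

/-- The lifted tuple exists: each entry is homogeneous one degree below, and zero in degree zero. -/
def Low {i : ℕ} (m : ℕ) (t : Fin i → SP) : Prop :=
  (∀ I, (t I).IsHomogeneous (m - 1)) ∧ (m = 0 → t = 0)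

lemma low_homotopy4 {m : ℕ} {a b c d : SP} (r : ℚ) (ha : a.IsHomogeneous m)
    (hb : b.IsHomogeneous m) (hc : c.IsHomogeneous m) (hd : d.IsHomogeneous m) (p q u v : Gix) :
    (C r * (-pderiv p a + pderiv q b - pderiv u c + pderiv v d)).IsHomogeneous (m - 1) :=
  ((((ha.pderiv).neg).add hb.pderiv).sub hc.pderiv |>.add hd.pderiv).C_mul r

theorem koszul0 {m : ℕ} {f : Fin 1 → SP} (hf : ∀ I, (f I).IsHomogeneous m) (hm : m ≠ 0) :
    ∃ t : Fin 4 → SP, Low m t ∧ t ᵥ* kap1 = f := by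
  refine ⟨![C ((m : ℚ)⁻¹) * pd 0 0 (f 0), C ((m : ℚ)⁻¹) * pd 0 1 (f 0),
    C ((m : ℚ)⁻¹) * pd 1 0 (f 0), C ((m : ℚ)⁻¹) * pd 1 1 (f 0)],
    ⟨fun I => ?_, fun h => absurd h hm⟩, ?_⟩
  · fin_cases I <;> exact (pd_hom (hf 0) _ _).C_mul _
  · funext J
    fin_cases J
    simp [vecMul, dotProduct, Fin.sum_univ_succ, kap1]
    linear_combination C ((m : ℚ)⁻¹) * euler4 (hf 0) + f 0 * C_inv_mul hm

theorem koszul1 {m : ℕ} {s : Fin 4 → SP} (hs : ∀ I, (s I).IsHomogeneous m)
    (h : s ᵥ* kap1 = 0) : ∃ t : Fin 6 → SP, Low m t ∧ t ᵥ* kap2 = s := by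
  have h0 : X (0, 0) * s 0 + X (0, 1) * s 1 + X (1, 0) * s 2 + X (1, 1) * s 3 = 0 := by
    have e := congrFun h 0
    simp [vecMul, dotProduct, Fin.sum_univ_succ, kap1] at e
    linear_combination e
  have e00 := congrArg (pd 0 0) h0
  have e01 := congrArg (pd 0 1) h0
  have e10 := congrArg (pd 1 0) h0
  have e11 := congrArg (pd 1 1) h0
  simp at e00 e01 e10 e11
  set r : ℚ := ((m + 1 : ℕ) : ℚ)⁻¹
  have hr : C r * ((m : SP) + 1) = 1 := by exact_mod_cast C_inv_mul (n := m + 1) (by omega)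
  refine ⟨![C r * (-pd 0 1 (s 0) + pd 0 0 (s 1)), C r * (-pd 1 0 (s 0) + pd 0 0 (s 2)),
    C r * (-pd 1 1 (s 0) + pd 0 0 (s 3)), C r * (-pd 1 0 (s 1) + pd 0 1 (s 2)),
    C r * (-pd 1 1 (s 1) + pd 0 1 (s 3)), C r * (-pd 1 1 (s 2) + pd 1 0 (s 3))],
    ⟨fun I => ?_, fun hm => ?_⟩, ?_⟩
  · fin_cases I <;> exact (((pd_hom (hs _) _ _).neg).add (pd_hom (hs _) _ _)).C_mul _
  · subst hm
    funext I
    fin_cases I <;> simp [pd_zero_deg (hs _)]
  · funext J
    fin_cases J <;> simp [vecMul, dotProduct, Fin.sum_univ_succ, kap2]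
    · linear_combination (-C r) * e00 + C r * euler4 (hs 0) + s 0 * hr
    · linear_combination (-C r) * e01 + C r * euler4 (hs 1) + s 1 * hr
    · linear_combination (-C r) * e10 + C r * euler4 (hs 2) + s 2 * hr
    · linear_combination (-C r) * e11 + C r * euler4 (hs 3) + s 3 * hr

theorem koszul2 {m : ℕ} {s : Fin 6 → SP} (hs : ∀ I, (s I).IsHomogeneous m)
    (h : s ᵥ* kap2 = 0) : ∃ t : Fin 4 → SP, Low m t ∧ t ᵥ* kap3 = s := by
  have c0 : X (0, 1) * s 0 + X (1, 0) * s 1 + X (1, 1) * s 2 = 0 := by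
    have e := congrFun h 0
    simp [vecMul, dotProduct, Fin.sum_univ_succ, kap2] at e
    linear_combination -e
  have c1 : X (0, 0) * s 0 - X (1, 0) * s 3 - X (1, 1) * s 4 = 0 := by
    have e := congrFun h 1
    simp [vecMul, dotProduct, Fin.sum_univ_succ, kap2] at e
    linear_combination e
  have c2 : X (0, 0) * s 1 + X (0, 1) * s 3 - X (1, 1) * s 5 = 0 := by
    have e := congrFun h 2
    simp [vecMul, dotProduct, Fin.sum_univ_succ, kap2] at e
    linear_combination e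
  have c3 : X (0, 0) * s 2 + X (0, 1) * s 4 + X (1, 0) * s 5 = 0 := by
    have e := congrFun h 3
    simp [vecMul, dotProduct, Fin.sum_univ_succ, kap2] at e
    linear_combination e
  have a01 := congrArg (pd 0 1) c0
  have a10 := congrArg (pd 1 0) c0
  have a11 := congrArg (pd 1 1) c0
  have b00 := congrArg (pd 0 0) c1
  have b10 := congrArg (pd 1 0) c1
  have b11 := congrArg (pd 1 1) c1
  have g00 := congrArg (pd 0 0) c2
  have g01 := congrArg (pd 0 1) c2
  have g11 := congrArg (pd 1 1) c2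
  have k00 := congrArg (pd 0 0) c3
  have k01 := congrArg (pd 0 1) c3
  have k10 := congrArg (pd 1 0) c3
  simp at a01 a10 a11 b00 b10 b11 g00 g01 g11 k00 k01 k10
  set r : ℚ := ((m + 2 : ℕ) : ℚ)⁻¹
  have hr : C r * ((m : SP) + 2) = 1 := by exact_mod_cast C_inv_mul (n := m + 2) (by omega)
  refine ⟨![C r * (pd 1 0 (s 0) - pd 0 1 (s 1) + pd 0 0 (s 3)),
    C r * (pd 1 1 (s 0) - pd 0 1 (s 2) + pd 0 0 (s 4)),
    C r * (pd 1 1 (s 1) - pd 1 0 (s 2) + pd 0 0 (s 5)),
    C r * (pd 1 1 (s 3) - pd 1 0 (s 4) + pd 0 1 (s 5))], ⟨fun I => ?_, fun hm => ?_⟩, ?_⟩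
  · fin_cases I <;>
      exact (((pd_hom (hs _) _ _).sub (pd_hom (hs _) _ _)).add (pd_hom (hs _) _ _)).C_mul _
  · subst hm
    funext I
    fin_cases I <;> simp [pd_zero_deg (hs _)]
  · funext J
    fin_cases J <;> simp [vecMul, dotProduct, Fin.sum_univ_succ, kap3]
    · linear_combination (-C r) * (a01 + b00) + C r * euler4 (hs 0) + s 0 * hr
    · linear_combination (-C r) * (a10 + g00) + C r * euler4 (hs 1) + s 1 * hr
    · linear_combination (-C r) * (a11 + k00) + C r * euler4 (hs 2) + s 2 * hr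
    · linear_combination (-C r) * (-b10 + g01) + C r * euler4 (hs 3) + s 3 * hr
    · linear_combination (-C r) * (-b11 + k01) + C r * euler4 (hs 4) + s 4 * hr
    · linear_combination (-C r) * (-g11 + k10) + C r * euler4 (hs 5) + s 5 * hr

theorem koszul3 {m : ℕ} {s : Fin 4 → SP} (hs : ∀ I, (s I).IsHomogeneous m)
    (h : s ᵥ* kap3 = 0) : ∃ t : Fin 1 → SP, Low m t ∧ t ᵥ* kap4 = s := by
  have c0 : X (1, 0) * s 0 + X (1, 1) * s 1 = 0 := by
    have e := congrFun h 0
    simp [vecMul, dotProduct, Fin.sum_univ_succ, kap3] at e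
    linear_combination e
  have c1 : X (0, 1) * s 0 - X (1, 1) * s 2 = 0 := by
    have e := congrFun h 1
    simp [vecMul, dotProduct, Fin.sum_univ_succ, kap3] at e
    linear_combination -e
  have c2 : X (0, 1) * s 1 + X (1, 0) * s 2 = 0 := by
    have e := congrFun h 2
    simp [vecMul, dotProduct, Fin.sum_univ_succ, kap3] at e
    linear_combination -e
  have c3 : X (0, 0) * s 0 + X (1, 1) * s 3 = 0 := by
    have e := congrFun h 3
    simp [vecMul, dotProduct, Fin.sum_univ_succ, kap3] at e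
    linear_combination e
  have c4 : X (0, 0) * s 1 - X (1, 0) * s 3 = 0 := by
    have e := congrFun h 4
    simp [vecMul, dotProduct, Fin.sum_univ_succ, kap3] at e
    linear_combination e
  have c5 : X (0, 0) * s 2 + X (0, 1) * s 3 = 0 := by
    have e := congrFun h 5
    simp [vecMul, dotProduct, Fin.sum_univ_succ, kap3] at e
    linear_combination e
  have p10 := congrArg (pd 1 0) c0
  have p11 := congrArg (pd 1 1) c0
  have q01 := congrArg (pd 0 1) c1
  have q11 := congrArg (pd 1 1) c1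
  have u01 := congrArg (pd 0 1) c2
  have u10 := congrArg (pd 1 0) c2
  have v00 := congrArg (pd 0 0) c3
  have v11 := congrArg (pd 1 1) c3
  have w00 := congrArg (pd 0 0) c4
  have w10 := congrArg (pd 1 0) c4
  have z00 := congrArg (pd 0 0) c5
  have z01 := congrArg (pd 0 1) c5
  simp at p10 p11 q01 q11 u01 u10 v00 v11 w00 w10 z00 z01
  set r : ℚ := ((m + 3 : ℕ) : ℚ)⁻¹
  have hr : C r * ((m : SP) + 3) = 1 := by exact_mod_cast C_inv_mul (n := m + 3) (by omega)
  refine ⟨![C r * (-pd 1 1 (s 0) + pd 1 0 (s 1) - pd 0 1 (s 2) + pd 0 0 (s 3))],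
    ⟨fun I => ?_, fun hm => ?_⟩, ?_⟩
  · fin_cases I
    exact low_homotopy4 r (hs 0) (hs 1) (hs 2) (hs 3) _ _ _ _
  · subst hm
    funext I
    fin_cases I
    simp [pd_zero_deg (hs _)]
  · funext J
    fin_cases J <;> simp [vecMul, dotProduct, Fin.sum_univ_succ, kap4]
    · linear_combination (-C r) * (p10 + q01 + v00) + C r * euler4 (hs 0) + s 0 * hr
    · linear_combination (-C r) * (p11 + u01 + w00) + C r * euler4 (hs 1) + s 1 * hr
    · linear_combination (-C r) * (-q11 + u10 + z00) + C r * euler4 (hs 2) + s 2 * hr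
    · linear_combination (-C r) * (v11 - w10 + z01) + C r * euler4 (hs 3) + s 3 * hr

theorem kap4_injective {s : Fin 1 → SP} (h : s ᵥ* kap4 = 0) : s = 0 := by
  have e := congrFun h 3
  simp [vecMul, dotProduct, kap4] at e
  funext I
  fin_cases I
  simpa using e

end

end Vale.Agent.P176
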