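import Vale.Agent.P176.Env

/-!
P176: the leading symbol of an element of the enveloping algebra of `gl₂`.

`UG` acts on polynomials in four variables `ξ` whose coefficients are polynomials in a `2 × 2`
matrix `X`; evaluating at `X = 1` gives the linear map `eta`, whose top component is the symbol.
-/

namespace Vale.Agent.P176

open MvPolynomial

noncomputable section

/-- Polynomials in four variables. -/
abbrev SP : Type := MvPolynomial Gix ℚ

/-- Polynomials in four variables with polynomial coefficients. -/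
abbrev RP : Type := MvPolynomial Gix SP

/-- The derivation `X m c ↦ δ c b X m a`. -/
def derab (a b : Fin 2) : Derivation ℚ SP SP :=
  mkDerivation ℚ fun p => if p.2 = b then X (p.1, a) else 0

lemma derab_X (a b m c : Fin 2) :
    derab a b (X (m, c)) = if c = b then X (m, a) else 0 := by
  simp [derab]

lemma derab_comm (a b c d : Fin 2) (f : SP) :
    derab a b (derab c d f) - derab c d (derab a b f)
      = (if b = c then derab a d f else 0) - (if a = d then derab c b f else 0) := by
  have h : ⁅derab a b, derab c d⁆ =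
      (if b = c then derab a d else 0) - (if a = d then derab c b else 0) := by
    apply MvPolynomial.derivation_ext
    rintro ⟨m, e⟩
    rw [Derivation.commutator_apply]
    fin_cases a <;> fin_cases b <;> fin_cases c <;> fin_cases d <;> fin_cases e <;>
      simp [derab_X]
  have h' := congrArg (fun D : Derivation ℚ SP SP => D f) h
  simp only [Derivation.commutator_apply, Derivation.sub_apply] at h'
  rw [h']
  split_ifs <;> simp

/-- A function applied to the coefficients. -/
def coefFun (δ : Derivation ℚ SP SP) (f : RP) : RP :=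
  ∑ d ∈ f.support, monomial d (δ (coeff d f))

lemma coeff_coefFun (δ : Derivation ℚ SP SP) (f : RP) (d : Gix →₀ ℕ) :
    coeff d (coefFun δ f) = δ (coeff d f) := by
  simp only [coefFun, coeff_sum, coeff_monomial, Finset.sum_ite_eq', mem_support_iff]
  split_ifs with h
  · rfl
  · simp_all

/-- A derivation applied to the coefficients. -/
def coefDer (δ : Derivation ℚ SP SP) : RP →ₗ[ℚ] RP where
  toFun f := coefFun δ f
  map_add' f g := by
    ext d : 1
    simp [coeff_coefFun]
  map_smul' r f := by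
    ext d : 1
    simp [coeff_coefFun, coeff_smul]

lemma coeff_coefDer (δ : Derivation ℚ SP SP) (f : RP) (d : Gix →₀ ℕ) :
    coeff d (coefDer δ f) = δ (coeff d f) := coeff_coefFun δ f d

lemma coefDer_C_mul (δ : Derivation ℚ SP SP) (s : SP) (f : RP) :
    coefDer δ (C s * f) = C (δ s) * f + C s * coefDer δ f := by
  ext d : 1
  simp only [coeff_coefDer, coeff_C_mul, coeff_add, Derivation.leibniz, smul_eq_mul]
  ring

lemma coefDer_X_mul (δ : Derivation ℚ SP SP) (i : Gix) (f : RP) :
    coefDer δ (X i * f) = X i * coefDer δ f := by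
  ext d : 1
  simp only [coeff_coefDer, coeff_X_mul']
  split_ifs <;> simp [coeff_coefDer]

/-- The polynomial `∑ X m a ξ m b`. -/
def Pab (a b : Fin 2) : RP := ∑ m : Fin 2, C (X (m, a)) * X (m, b)

lemma coefDer_Pab_mul (a b c d : Fin 2) (f : RP) :
    coefDer (derab a b) (Pab c d * f)
      = (if b = c then Pab a d else 0) * f + Pab c d * coefDer (derab a b) f := by
  simp only [Pab, Finset.sum_mul, map_sum, mul_assoc, coefDer_C_mul, coefDer_X_mul, derab_X,
    Finset.sum_add_distrib]
  split_ifs <;> simp_all [Finset.sum_mul, mul_assoc] <;> ring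

/-- The operator of a generator. -/
def opE (a b : Fin 2) : Module.End ℚ RP :=
  coefDer (derab a b) + LinearMap.mulLeft ℚ (Pab a b)

lemma opE_apply (a b : Fin 2) (f : RP) :
    opE a b f = coefDer (derab a b) f + Pab a b * f := rfl

lemma coefDer_comm (a b c d : Fin 2) (f : RP) :
    coefDer (derab a b) (coefDer (derab c d) f) - coefDer (derab c d) (coefDer (derab a b) f)
      = (if b = c then coefDer (derab a d) f else 0)
        - (if a = d then coefDer (derab c b) f else 0) := by
  ext e : 1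
  simp only [coeff_sub, coeff_coefDer, derab_comm]
  split_ifs <;> simp [coeff_coefDer]

lemma isRep_opE : IsRep opE := by
  intro a b c d
  refine LinearMap.ext fun f => ?_
  have e : (opE a b * opE c d - opE c d * opE a b) f
      = opE a b (opE c d f) - opE c d (opE a b f) := rfl
  have h := coefDer_comm a b c d f
  rw [e, LinearMap.sub_apply]
  simp only [opE_apply, map_add, coefDer_Pab_mul]
  have e1 : (if b = c then opE a d else 0) f
      = (if b = c then coefDer (derab a d) f else 0) + (if b = c then Pab a d else 0) * f := by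
    split_ifs <;> simp [opE_apply]
  have e2 : (if a = d then opE c b else 0) f
      = (if a = d then coefDer (derab c b) f else 0) + (if d = a then Pab c b else 0) * f := by
    rcases eq_or_ne a d with rfl | hq
    · simp [opE_apply]
    · simp [hq, hq.symm]
  rw [e1, e2]
  linear_combination h

/-- The action of `UG` on `RP`. -/
def act : UG →ₐ[ℚ] Module.End ℚ RP := liftRep opE isRep_opE

/-- The orbit of `1`. -/
def orb (u : UG) : RP := act u 1

lemma orb_add (u v : UG) : orb (u + v) = orb u + orb v := by simp [orb]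

lemma orb_smul (r : ℚ) (u : UG) : orb (r • u) = r • orb u := by simp [orb]

lemma orb_gE_mul (a b : Fin 2) (u : UG) : orb (gE a b * u) = opE a b (orb u) := by
  simp [orb, act, map_mul]

lemma coefDer_totalDegree {δ : Derivation ℚ SP SP} {f : RP} {m : ℕ} (h : f.totalDegree ≤ m) :
    (coefDer δ f).totalDegree ≤ m := by
  refine le_trans (Finset.sup_mono ?_) h
  intro d hd
  rw [mem_support_iff, coeff_coefDer] at hd
  rw [mem_support_iff]
  intro h'
  simp [h'] at hd

lemma Pab_totalDegree (a b : Fin 2) : (Pab a b).totalDegree ≤ 1 := by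
  refine (totalDegree_finsetSum_le ?_)
  intro m _
  refine (totalDegree_mul _ _).trans ?_
  simp

lemma orb_totalDegree {m : ℕ} {u : UG} (h : u ∈ Fn m) : (orb u).totalDegree ≤ m := by
  refine Fn_induction (p := fun m u => (orb u).totalDegree ≤ m) ?_ ?_ ?_ ?_ ?_ ?_ m u h
  · intro r
    refine (orb_smul r 1).symm ▸ (totalDegree_smul_le r _).trans ?_
    simp [orb]
  · intro m x y hx hy
    rw [orb_add]; exact (totalDegree_add _ _).trans (max_le hx hy)
  · intro m; simp [orb]
  · intro m r x hx
    rw [orb_smul]; exact (totalDegree_smul_le r _).trans hx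
  · intro m x _ hx; exact hx.trans (Nat.le_succ m)
  · intro m a b x _ hx
    rw [orb_gE_mul, opE_apply]
    refine (totalDegree_add _ _).trans (max_le ((coefDer_totalDegree hx).trans (Nat.le_succ m)) ?_)
    refine (totalDegree_mul _ _).trans ?_
    have := Pab_totalDegree a b
    omega

/-- Evaluation at the identity matrix. -/
def evI : SP →+* ℚ := eval fun p => kd p.1 p.2

lemma evI_C (r : ℚ) : evI (algebraMap ℚ SP r) = r := by
  simp [evI]

/-- The full symbol. -/
def eta : UG →ₗ[ℚ] SP where
  toFun u := MvPolynomial.map evI (orb u)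
  map_add' u v := by rw [orb_add, map_add]
  map_smul' r u := by
    rw [orb_smul]
    ext d
    simp [coeff_map, coeff_smul, evI, smul_eq_C_mul]

lemma eta_apply (u : UG) : eta u = MvPolynomial.map evI (orb u) := rfl

lemma eta_totalDegree {m : ℕ} {u : UG} (h : u ∈ Fn m) : (eta u).totalDegree ≤ m :=
  (Finset.sup_mono (support_map_subset evI (orb u))).trans (orb_totalDegree h)

lemma map_Pab (a b : Fin 2) : MvPolynomial.map evI (Pab a b) = X (a, b) := by
  simp only [Pab, map_sum, map_mul, MvPolynomial.map_C, MvPolynomial.map_X, evI, eval_X,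
    Fin.sum_univ_two]
  fin_cases a <;> simp [kd]

/-- The symbol in degree `m`. -/
def sym (m : ℕ) : UG →ₗ[ℚ] SP := (homogeneousComponent m).comp eta

lemma sym_apply (m : ℕ) (u : UG) : sym m u = homogeneousComponent m (eta u) := rfl

lemma sym_isHomogeneous (m : ℕ) (u : UG) : (sym m u).IsHomogeneous m :=
  homogeneousComponent_isHomogeneous m _

lemma sym_of_mem {m k : ℕ} {u : UG} (h : u ∈ Fn m) (hk : m < k) : sym k u = 0 :=
  homogeneousComponent_eq_zero k _ (lt_of_le_of_lt (eta_totalDegree h) hk)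

lemma sym_smul_one (r : ℚ) : sym 0 (r • 1) = C r := by
  have : eta (r • (1 : UG)) = C r := by
    rw [map_smul, eta_apply]; simp [orb, smul_eq_C_mul]
  rw [sym_apply, this, homogeneousComponent_zero, coeff_C]; simp

lemma sym_gE_mul {m : ℕ} {x : UG} (h : x ∈ Fn m) (a b : Fin 2) :
    sym (m + 1) (gE a b * x) = X (a, b) * sym m x := by
  rw [sym_apply, eta_apply, orb_gE_mul, opE_apply, map_add, map_mul, map_Pab, map_add,
    homogeneousComponent_eq_zero (m + 1), zero_add, sym_apply, eta_apply]
  · ext d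
    rw [coeff_homogeneousComponent, coeff_X_mul', coeff_X_mul', coeff_homogeneousComponent]
    by_cases hd : (a, b) ∈ d.support
    · rw [if_pos hd, if_pos hd]
      have hle : Finsupp.single (a, b) 1 ≤ d := by
        simpa [Finsupp.single_le_iff, Nat.one_le_iff_ne_zero] using hd
      have e : (d - Finsupp.single (a, b) 1).degree + 1 = d.degree := by
        conv_rhs => rw [← tsub_add_cancel_of_le hle, map_add, Finsupp.degree_single]
      by_cases hm : (d - Finsupp.single (a, b) 1).degree = m
      · rw [if_pos hm, if_pos (by omega)]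
      · rw [if_neg hm, if_neg (by omega)]
    · simp [hd]
  · exact Nat.lt_succ_of_le
      ((Finset.sup_mono (support_map_subset evI _)).trans (coefDer_totalDegree (orb_totalDegree h)))

lemma sym_mul_gE {m : ℕ} {x : UG} (h : x ∈ Fn m) (a b : Fin 2) :
    sym (m + 1) (x * gE a b) = sym m x * X (a, b) := by
  have e : x * gE a b = gE a b * x - (gE a b * x - x * gE a b) := by abel
  rw [e, map_sub, sym_gE_mul h, sym_of_mem (gE_comm_mem h a b) (Nat.lt_succ_self m), sub_zero,
    mul_comm]

/-! ### Ordered monomials -/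

/-- The ordered product of a monomial. -/
def ordMon (d : Gix →₀ ℕ) : UG :=
  gE 0 0 ^ d (0, 0) * (gE 0 1 ^ d (0, 1) * (gE 1 0 ^ d (1, 0) * gE 1 1 ^ d (1, 1)))

/-- The ordered lift of a polynomial. -/
def lift0 : SP →ₗ[ℚ] UG := (basisMonomials Gix ℚ).constr ℚ ordMon

lemma lift0_monomial (d : Gix →₀ ℕ) : lift0 (monomial d 1) = ordMon d := by
  have h := (basisMonomials Gix ℚ).constr_basis ℚ ordMon d
  rwa [coe_basisMonomials] at h

lemma degree_eq (d : Gix →₀ ℕ) :
    d.degree = d (0, 0) + d (0, 1) + d (1, 0) + d (1, 1) := by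
  rw [Finsupp.degree_eq_sum]
  simp only [Fintype.sum_prod_type, Fin.sum_univ_two]
  ring

lemma pow_gE_mem (a b : Fin 2) (k : ℕ) : gE a b ^ k ∈ Fn k :=
  Submodule.pow_mem_pow _ (gE_mem_F1 a b) k

lemma ordMon_mem (d : Gix →₀ ℕ) : ordMon d ∈ Fn d.degree := by
  rw [degree_eq, show d (0, 0) + d (0, 1) + d (1, 0) + d (1, 1)
    = d (0, 0) + (d (0, 1) + (d (1, 0) + d (1, 1))) by ring]
  exact Fn_mul_mem (pow_gE_mem _ _ _) (Fn_mul_mem (pow_gE_mem _ _ _)
    (Fn_mul_mem (pow_gE_mem _ _ _) (pow_gE_mem _ _ _)))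

lemma lift0_mem {m : ℕ} {p : SP} (h : p.IsHomogeneous m) : lift0 p ∈ Fn m := by
  rw [p.as_sum, map_sum]
  refine Submodule.sum_mem _ fun d hd => ?_
  have hd' : d.degree = m := (Finsupp.degree_apply d).trans (h.degree_eq_sum_deg_support hd).symm
  rw [show monomial d (coeff d p) = coeff d p • monomial d (1 : ℚ) by rw [smul_monomial, smul_eq_mul, mul_one],
    map_smul, lift0_monomial, ← hd']
  exact Submodule.smul_mem _ _ (ordMon_mem d)

lemma sym_pow_mul {m : ℕ} {x : UG} (h : x ∈ Fn m) (a b : Fin 2) (k : ℕ) :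
    sym (k + m) (gE a b ^ k * x) = X (a, b) ^ k * sym m x := by
  induction k with
  | zero => simp
  | succ k ih =>
    rw [pow_succ', mul_assoc, show k + 1 + m = k + m + 1 by ring,
      sym_gE_mul (Fn_mul_mem (pow_gE_mem a b k) h), ih, pow_succ', mul_assoc]

lemma sym_ordMon (d : Gix →₀ ℕ) : sym d.degree (ordMon d) = monomial d 1 := by
  have h1 : sym (d (1, 1)) (gE 1 1 ^ d (1, 1)) = X (1, 1) ^ d (1, 1) := by
    have h := sym_pow_mul (x := 1) one_mem_Fn_zero 1 1 (d (1, 1))
    have h0 := sym_smul_one 1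
    rw [one_smul, C_1] at h0
    simpa [h0] using h
  rw [degree_eq, show d (0, 0) + d (0, 1) + d (1, 0) + d (1, 1)
      = d (0, 0) + (d (0, 1) + (d (1, 0) + d (1, 1))) by ring, ordMon,
    sym_pow_mul (Fn_mul_mem (pow_gE_mem _ _ _) (Fn_mul_mem (pow_gE_mem _ _ _) (pow_gE_mem _ _ _))),
    sym_pow_mul (Fn_mul_mem (pow_gE_mem _ _ _) (pow_gE_mem _ _ _)),
    sym_pow_mul (pow_gE_mem _ _ _), h1, monomial_eq, C_1, one_mul,
    Finsupp.prod_fintype _ _ (fun i => pow_zero _)]
  simp only [Fintype.prod_prod_type, Fin.prod_univ_two]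
  ring

lemma sym_lift0 {m : ℕ} {p : SP} (h : p.IsHomogeneous m) : sym m (lift0 p) = p := by
  conv_rhs => rw [p.as_sum]
  conv_lhs => rw [p.as_sum]
  rw [map_sum, map_sum]
  refine Finset.sum_congr rfl fun d hd => ?_
  have hd' : d.degree = m := (Finsupp.degree_apply d).trans (h.degree_eq_sum_deg_support hd).symm
  rw [show monomial d (coeff d p) = coeff d p • monomial d (1 : ℚ) by rw [smul_monomial, smul_eq_mul, mul_one],
    map_smul, lift0_monomial, map_smul, ← hd', sym_ordMon]

/-- Moving a generator to its place in an ordered product changes only lower terms. -/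
lemma gE_mul_ordMon (a b : Fin 2) (d : Gix →₀ ℕ) :
    gE a b * ordMon d - ordMon (Finsupp.single (a, b) 1 + d) ∈ Fn d.degree := by
  rw [degree_eq]
  generalize hA : gE 0 0 ^ d (0, 0) = A
  generalize hB : gE 0 1 ^ d (0, 1) = B
  generalize hC : gE 1 0 ^ d (1, 0) = Cc
  generalize hD : gE 1 1 ^ d (1, 1) = D
  have mA : A ∈ Fn (d (0, 0)) := hA ▸ pow_gE_mem _ _ _
  have mB : B ∈ Fn (d (0, 1)) := hB ▸ pow_gE_mem _ _ _
  have mC : Cc ∈ Fn (d (1, 0)) := hC ▸ pow_gE_mem _ _ _
  have mD : D ∈ Fn (d (1, 1)) := hD ▸ pow_gE_mem _ _ _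
  have t1 : ∀ c e, (gE c e * A - A * gE c e) * (B * (Cc * D)) ∈
      Fn (d (0, 0) + d (0, 1) + d (1, 0) + d (1, 1)) := fun c e => by
    simpa [add_assoc] using Fn_mul_mem (gE_comm_mem mA c e) (Fn_mul_mem mB (Fn_mul_mem mC mD))
  have t2 : ∀ c e, A * ((gE c e * B - B * gE c e) * (Cc * D)) ∈
      Fn (d (0, 0) + d (0, 1) + d (1, 0) + d (1, 1)) := fun c e => by
    simpa [add_assoc] using Fn_mul_mem mA (Fn_mul_mem (gE_comm_mem mB c e) (Fn_mul_mem mC mD))
  have t3 : ∀ c e, A * (B * ((gE c e * Cc - Cc * gE c e) * D)) ∈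
      Fn (d (0, 0) + d (0, 1) + d (1, 0) + d (1, 1)) := fun c e => by
    simpa [add_assoc] using Fn_mul_mem mA (Fn_mul_mem mB (Fn_mul_mem (gE_comm_mem mC c e) mD))
  fin_cases a <;> fin_cases b
  · have e : gE 0 0 * ordMon d - ordMon (Finsupp.single ((0 : Fin 2), (0 : Fin 2)) 1 + d) = 0 := by
      simp [ordMon, pow_add, mul_assoc]
    exact e ▸ zero_mem _
  · have e : gE 0 1 * ordMon d - ordMon (Finsupp.single ((0 : Fin 2), (1 : Fin 2)) 1 + d)
        = (gE 0 1 * A - A * gE 0 1) * (B * (Cc * D)) := by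
      simp [ordMon, hA, hB, hC, hD, pow_add, sub_mul, mul_assoc]
    exact e ▸ t1 0 1
  · have e : gE 1 0 * ordMon d - ordMon (Finsupp.single ((1 : Fin 2), (0 : Fin 2)) 1 + d)
        = (gE 1 0 * A - A * gE 1 0) * (B * (Cc * D))
          + A * ((gE 1 0 * B - B * gE 1 0) * (Cc * D)) := by
      simp [ordMon, hA, hB, hC, hD, pow_add, sub_mul, mul_sub, mul_assoc]
    exact e ▸ add_mem (t1 1 0) (t2 1 0)
  · have e : gE 1 1 * ordMon d - ordMon (Finsupp.single ((1 : Fin 2), (1 : Fin 2)) 1 + d)
        = (gE 1 1 * A - A * gE 1 1) * (B * (Cc * D))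
          + A * ((gE 1 1 * B - B * gE 1 1) * (Cc * D))
          + A * (B * ((gE 1 1 * Cc - Cc * gE 1 1) * D)) := by
      simp [ordMon, hA, hB, hC, hD, pow_add, sub_mul, mul_sub, mul_assoc]
    exact e ▸ add_mem (add_mem (t1 1 1) (t2 1 1)) (t3 1 1)

lemma gE_mul_lift0 (a b : Fin 2) {m : ℕ} {p : SP} (h : p.IsHomogeneous m) :
    gE a b * lift0 p - lift0 (X (a, b) * p) ∈ Fn m := by
  rw [p.as_sum]
  rw [Finset.mul_sum, map_sum, map_sum, Finset.mul_sum, ← Finset.sum_sub_distrib]
  refine Submodule.sum_mem _ fun d hd => ?_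
  have hd' : d.degree = m := (Finsupp.degree_apply d).trans (h.degree_eq_sum_deg_support hd).symm
  have e1 : monomial d (coeff d p) = coeff d p • monomial d (1 : ℚ) := by rw [smul_monomial, smul_eq_mul, mul_one]
  have e2 : X (a, b) * monomial d (1 : ℚ) = monomial (Finsupp.single (a, b) 1 + d) 1 := by
    rw [monomial_single_add, pow_one]
  rw [e1, mul_smul_comm, e2, map_smul, map_smul, lift0_monomial, lift0_monomial, mul_smul_comm,
    ← hd']
  have h' := Submodule.smul_mem _ (coeff d p) (gE_mul_ordMon a b d)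
  simpa only [smul_sub] using h'

/-- An element of degree `≤ m` is the lift of its symbol up to lower terms. -/
lemma sub_lift0_sym {m : ℕ} {x : UG} (h : x ∈ Fn m) :
    x - lift0 (sym m x) ∈ FI ((m : ℤ) - 1) := by
  refine Fn_induction (p := fun m x => x - lift0 (sym m x) ∈ FI ((m : ℤ) - 1))
    ?_ ?_ ?_ ?_ ?_ ?_ m x h
  · intro r
    rw [sym_smul_one, show (C r : SP) = r • monomial 0 1 by rw [smul_monomial, smul_eq_mul, mul_one]; rfl,
      map_smul, lift0_monomial]
    simp [ordMon]
  · intro m x y hx hy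
    rw [map_add, map_add, add_sub_add_comm]; exact add_mem hx hy
  · intro m; simp
  · intro m r x hx
    have h' := Submodule.smul_mem _ r hx
    simpa only [map_smul, smul_sub] using h'
  · intro m x hx _
    rw [sym_of_mem hx (Nat.lt_succ_self m), map_zero, sub_zero, Nat.cast_succ, add_sub_cancel_right,
      FI_nat]
    exact hx
  · intro m a b x hxm hx
    have e : gE a b * x - lift0 (sym (m + 1) (gE a b * x))
        = gE a b * (x - lift0 (sym m x))
          + (gE a b * lift0 (sym m x) - lift0 (X (a, b) * sym m x)) := by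
      rw [sym_gE_mul hxm, mul_sub]; abel
    rw [e, Nat.cast_succ, add_sub_cancel_right]
    refine add_mem ?_ ?_
    · have := FI_mul_mem (gE_mem_FI (z := 1) le_rfl a b) hx
      rwa [add_sub_cancel] at this
    · rw [FI_nat]; exact gE_mul_lift0 a b (sym_isHomogeneous m x)

lemma mem_of_sym_eq_zero {m : ℕ} {x : UG} (h : x ∈ Fn m) (h0 : sym m x = 0) :
    x ∈ FI ((m : ℤ) - 1) := by
  simpa [h0] using sub_lift0_sym h

lemma exists_mem_Fn (x : UG) : ∃ m, x ∈ Fn m := by
  refine gE_induction (p := fun x => ∃ m, x ∈ Fn m) ?_ ?_ ?_ ?_ x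
  · intro r
    exact ⟨0, by rw [Algebra.algebraMap_eq_smul_one]; exact Submodule.smul_mem _ r one_mem_Fn_zero⟩
  · intro a b
    exact ⟨1, by rw [Fn, pow_one]; exact gE_mem_F1 a b⟩
  · rintro x y ⟨i, hi⟩ ⟨j, hj⟩
    exact ⟨max i j, add_mem (Fn_mono (le_max_left _ _) hi) (Fn_mono (le_max_right _ _) hj)⟩
  · rintro x y ⟨i, hi⟩ ⟨j, hj⟩
    exact ⟨i + j, Fn_mul_mem hi hj⟩

end

end Vale.Agent.P176
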