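import Vale.Agent.P176.Defs
import Vale.Agent.P176.Symbol
import Vale.Agent.P176.Koszul

/-!
P176: the twisted Chevalley-Eilenberg complex is exact and strict for the filtration by length,
and the operator `Dm` is injective and strict.
-/

namespace Vale.Agent.P176

open MvPolynomial Matrix

noncomputable section

/-! ### Compositions -/

section CE

variable {R : Type*} [Ring R] {g : Fin 2 → Fin 2 → R}

lemma IsRep.order (h : IsRep g) :
    g 0 1 * g 0 0 = g 0 0 * g 0 1 - g 0 1 ∧ g 1 0 * g 0 0 = g 0 0 * g 1 0 + g 1 0 ∧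
    g 1 1 * g 0 0 = g 0 0 * g 1 1 ∧ g 1 0 * g 0 1 = g 0 1 * g 1 0 - g 0 0 + g 1 1 ∧
    g 1 1 * g 0 1 = g 0 1 * g 1 1 - g 0 1 ∧ g 1 1 * g 1 0 = g 1 0 * g 1 1 + g 1 0 := by
  refine ⟨?_, ?_, ?_, ?_, ?_, ?_⟩
  · have e := h 0 1 0 0; simp at e; rw [sub_eq_iff_eq_add] at e; rw [e]; abel
  · have e := h 1 0 0 0; simp at e; rw [sub_eq_iff_eq_add] at e; rw [e]; abel
  · have e := h 1 1 0 0; simp at e; rw [sub_eq_iff_eq_add] at e; rw [e]; abel
  · have e := h 1 0 0 1; simp at e; rw [sub_eq_iff_eq_add] at e; rw [e]; abel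
  · have e := h 1 1 0 1; simp at e; rw [sub_eq_iff_eq_add] at e; rw [e]; abel
  · have e := h 1 1 1 0; simp at e; rw [sub_eq_iff_eq_add] at e; rw [e]; abel

lemma ce4_mul_ce3 (h : IsRep g) : ce4 g * ce3 g = 0 := by
  obtain ⟨r1, r2, r3, r4, r5, r6⟩ := h.order
  ext I J
  fin_cases I; fin_cases J <;>
    simp [ce4, ce3, Matrix.mul_apply, Fin.sum_univ_succ, mul_add, add_mul, mul_sub, sub_mul,
      r1, r2, r3, r4, r5, r6] <;> abel

lemma ce3_mul_ce2 (h : IsRep g) : ce3 g * ce2 g = 0 := by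
  obtain ⟨r1, r2, r3, r4, r5, r6⟩ := h.order
  ext I J
  fin_cases I <;> fin_cases J <;>
    simp [ce3, ce2, Matrix.mul_apply, Fin.sum_univ_succ, mul_add, add_mul, mul_sub, sub_mul,
      r1, r2, r3, r4, r5, r6] <;> abel

lemma ce2_mul_ce1 (h : IsRep g) : ce2 g * ce1 g = 0 := by
  obtain ⟨r1, r2, r3, r4, r5, r6⟩ := h.order
  ext I J
  fin_cases J; fin_cases I <;>
    simp [ce2, ce1, Matrix.mul_apply, Fin.sum_univ_succ, mul_add, add_mul, mul_sub, sub_mul,
      r1, r2, r3, r4, r5, r6] <;> abel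

end CE

variable {N : ℕ} {ρ : Fin 2 → Fin 2 → Matrix (Fin N) (Fin N) ℚ}

lemma gT_apply (a b : Fin 2) (p q : Fin N) :
    gT ρ a b p q = (if p = q then gE a b else 0) - algebraMap ℚ UG (ρ a b q p) := by
  simp [gT, Matrix.diagonal_apply]

lemma isRep_gT (hρ : IsRep ρ) : IsRep (gT ρ) := by
  intro a b c d
  set M : Fin 2 → Fin 2 → Matrix (Fin N) (Fin N) UG :=
    fun a b => (ρ a b)ᵀ.map (algebraMap ℚ UG) with hM
  set E : Fin 2 → Fin 2 → Matrix (Fin N) (Fin N) UG :=
    fun a b => Matrix.diagonal (fun _ => gE a b) with hE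
  have hEM : ∀ a b c d, E a b * M c d = M c d * E a b := by
    intro a b c d
    ext p q
    simp [hE, hM, Matrix.diagonal_mul, Matrix.mul_diagonal, Algebra.commutes]
  have hEE : E a b * E c d - E c d * E a b
      = (if b = c then E a d else 0) - (if a = d then E c b else 0) := by
    let ψ : UG →+* Matrix (Fin N) (Fin N) UG :=
      (Matrix.diagonalRingHom (Fin N) UG).comp (Pi.constRingHom (Fin N) UG)
    have h := congrArg ψ (gE_comm a b c d)
    simp only [map_sub, map_mul] at h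
    have e : ∀ a b, ψ (gE a b) = E a b := fun a b => rfl
    rw [e, e] at h
    rw [h]
    split_ifs <;> simp [e]
  have hMM : M a b * M c d - M c d * M a b
      = -((if b = c then M a d else 0) - (if a = d then M c b else 0)) := by
    let φ : Matrix (Fin N) (Fin N) ℚ →+* Matrix (Fin N) (Fin N) UG :=
      (algebraMap ℚ UG).mapMatrix
    have h := congrArg (fun u => φ (Matrix.transpose u)) (hρ a b c d)
    simp only [Matrix.transpose_sub, Matrix.transpose_mul, map_sub, map_mul] at h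
    have e : ∀ a b, φ (ρ a b)ᵀ = M a b := fun a b => rfl
    rw [e, e] at h
    rw [← neg_sub, h]
    split_ifs <;> simp [e]
  show (E a b - M a b) * (E c d - M c d) - (E c d - M c d) * (E a b - M a b)
    = (if b = c then E a d - M a d else 0) - (if a = d then E c b - M c b else 0)
  have key : (E a b - M a b) * (E c d - M c d) - (E c d - M c d) * (E a b - M a b)
      = (E a b * E c d - E c d * E a b) + (M a b * M c d - M c d * M a b) := by
    rw [sub_mul, sub_mul, mul_sub, mul_sub, mul_sub, mul_sub, hEM a b c d, ← hEM c d a b]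
    abel
  rw [key, hEE, hMM]
  split_ifs <;> abel

section Comp

variable {i j l : ℕ}

lemma dC_dC (L : Matrix (Fin i) (Fin j) (Matrix (Fin N) (Fin N) UG))
    (K : Matrix (Fin j) (Fin l) (Matrix (Fin N) (Fin N) UG)) (x : Fin i → Fin N → UG) :
    dC K (dC L x) = dC (L * K) x := by
  funext H
  simp only [dC, Matrix.mul_apply, Matrix.vecMul_sum, Matrix.sum_vecMul, Matrix.vecMul_vecMul]
  exact Finset.sum_comm

lemma dC_zero_mat (x : Fin i → Fin N → UG) :
    dC (0 : Matrix (Fin i) (Fin j) (Matrix (Fin N) (Fin N) UG)) x = 0 := by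
  funext J; simp [dC]

lemma dC_sub (K : Matrix (Fin i) (Fin j) (Matrix (Fin N) (Fin N) UG))
    (x y : Fin i → Fin N → UG) : dC K (x - y) = dC K x - dC K y := by
  funext J; simp [dC, Matrix.sub_vecMul, Finset.sum_sub_distrib]

lemma dC_add (K : Matrix (Fin i) (Fin j) (Matrix (Fin N) (Fin N) UG))
    (x y : Fin i → Fin N → UG) : dC K (x + y) = dC K x + dC K y := by
  funext J; simp [dC, Matrix.add_vecMul, Finset.sum_add_distrib]

lemma dC_zero (K : Matrix (Fin i) (Fin j) (Matrix (Fin N) (Fin N) UG)) :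
    dC K 0 = 0 := by
  funext J; simp [dC]

end Comp

theorem dC_comp4 (hρ : IsRep ρ) (x : Fin 1 → Fin N → UG) :
    dC (ce3 (gT ρ)) (dC (ce4 (gT ρ)) x) = 0 := by
  rw [dC_dC, ce4_mul_ce3 (isRep_gT hρ), dC_zero_mat]

theorem dC_comp3 (hρ : IsRep ρ) (x : Fin 4 → Fin N → UG) :
    dC (ce2 (gT ρ)) (dC (ce3 (gT ρ)) x) = 0 := by
  rw [dC_dC, ce3_mul_ce2 (isRep_gT hρ), dC_zero_mat]

theorem dC_comp2 (hρ : IsRep ρ) (x : Fin 6 → Fin N → UG) :
    dC (ce1 (gT ρ)) (dC (ce2 (gT ρ)) x) = 0 := by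
  rw [dC_dC, ce2_mul_ce1 (isRep_gT hρ), dC_zero_mat]

theorem epsC_comp (hρ : IsRep ρ) (x : Fin 4 → Fin N → UG) :
    epsC ρ hρ (dC (ce1 (gT ρ)) x) = 0 := by
  have key : ∀ (a b : Fin 2) (v : Fin N → UG) (q : Fin N),
      ∑ p, liftRep ρ hρ ((v ᵥ* gT ρ a b) p) q p = 0 := by
    intro a b v q
    have hp : ∀ p, (v ᵥ* gT ρ a b) p
        = v p * gE a b - ∑ r, ρ a b p r • v r := by
      intro p
      simp [vecMul, dotProduct, gT_apply, mul_sub, Finset.sum_sub_distrib, mul_ite,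
        Algebra.smul_def, Algebra.commutes]
    simp only [hp, map_sub, map_mul, map_sum, map_smul, liftRep_gE, Matrix.sub_apply,
      Matrix.mul_apply, Matrix.sum_apply, Matrix.smul_apply, smul_eq_mul, Finset.sum_sub_distrib]
    rw [sub_eq_zero, Finset.sum_comm]
    exact Finset.sum_congr rfl fun p _ => Finset.sum_congr rfl fun r _ => mul_comm _ _
  funext q
  simp only [epsC, dC, Finset.sum_apply, map_sum, Matrix.sum_apply, Pi.zero_apply]
  rw [Finset.sum_comm]
  refine Finset.sum_eq_zero fun I _ => ?_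
  fin_cases I <;> simpa [ce1] using key _ _ _ q

/-! ### Symbols of the differentials -/

/-- Right multiplication by `M` raises the degree by one with symbol `s`. -/
def HasSym (M : Matrix (Fin N) (Fin N) UG) (s : SP) : Prop :=
  ∀ (m : ℕ) (p q : Fin N) (x : UG), x ∈ Fn m →
    x * M p q ∈ Fn (m + 1) ∧ sym (m + 1) (x * M p q) = if p = q then sym m x * s else 0

lemma hasSym_gT (a b : Fin 2) : HasSym (gT ρ a b) (X (a, b)) := by
  intro m p q x hx
  have hg : x * gE a b ∈ Fn (m + 1) := Fn_mul_mem hx (by rw [Fn, pow_one]; exact gE_mem_F1 a b)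
  have hr : x * algebraMap ℚ UG (ρ a b q p) ∈ Fn m := by
    rw [← Algebra.commutes, ← Algebra.smul_def]; exact Submodule.smul_mem _ _ hx
  rw [gT_apply, mul_sub, map_sub, sym_of_mem hr (Nat.lt_succ_self m), sub_zero]
  split_ifs with h
  · exact ⟨sub_mem hg (Fn_le_succ m hr), sym_mul_gE hx a b⟩
  · simp [neg_mem (Fn_le_succ m hr)]

lemma hasSym_zero : HasSym (0 : Matrix (Fin N) (Fin N) UG) 0 := by
  intro m p q x _
  simp

lemma hasSym_one : HasSym (1 : Matrix (Fin N) (Fin N) UG) 0 := by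
  intro m p q x hx
  rw [Matrix.one_apply]
  split_ifs
  · simp [Fn_le_succ m hx, sym_of_mem hx (Nat.lt_succ_self m)]
  · simp

lemma HasSym.neg {M : Matrix (Fin N) (Fin N) UG} {s : SP} (h : HasSym M s) :
    HasSym (-M) (-s) := by
  intro m p q x hx
  obtain ⟨h1, h2⟩ := h m p q x hx
  have e : x * (-M) p q = -(x * M p q) := by
    show x * -(M p q) = _
    exact mul_neg x (M p q)
  rw [e, map_neg, h2]
  refine ⟨neg_mem h1, ?_⟩
  split_ifs <;> simp

lemma HasSym.add_one {M : Matrix (Fin N) (Fin N) UG} {s : SP} (h : HasSym M s) :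
    HasSym (M + 1) s := by
  intro m p q x hx
  obtain ⟨h1, h2⟩ := h m p q x hx
  obtain ⟨h3, h4⟩ := hasSym_one (N := N) m p q x hx
  have e : (M + 1) p q = M p q + (1 : Matrix (Fin N) (Fin N) UG) p q := rfl
  rw [e, mul_add, map_add, h2, h4]
  exact ⟨add_mem h1 h3, by simp⟩

lemma HasSym.sub_one {M : Matrix (Fin N) (Fin N) UG} {s : SP} (h : HasSym M s) :
    HasSym (M - 1) s := by
  intro m p q x hx
  obtain ⟨h1, h2⟩ := h m p q x hx
  obtain ⟨h3, h4⟩ := hasSym_one (N := N) m p q x hx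
  have e : (M - 1) p q = M p q - (1 : Matrix (Fin N) (Fin N) UG) p q := rfl
  rw [e, mul_sub, map_sub, h2, h4]
  exact ⟨sub_mem h1 h3, by simp⟩

lemma hasSym_neg_one : HasSym (-1 : Matrix (Fin N) (Fin N) UG) 0 := by
  simpa using (hasSym_one (N := N)).neg

lemma hasSym_ce1 : ∀ I J, HasSym (ce1 (gT ρ) I J) (kap1 I J) := by
  intro I J
  fin_cases I <;> fin_cases J <;> simp [ce1, kap1, hasSym_gT]

lemma hasSym_ce2 : ∀ I J, HasSym (ce2 (gT ρ) I J) (kap2 I J) := by
  intro I J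
  fin_cases I <;> fin_cases J <;>
    simp [ce2, kap2, hasSym_gT, hasSym_zero, hasSym_one, hasSym_neg_one, HasSym.neg,
      HasSym.add_one, HasSym.sub_one]

lemma hasSym_ce3 : ∀ I J, HasSym (ce3 (gT ρ) I J) (kap3 I J) := by
  intro I J
  fin_cases I <;> fin_cases J <;>
    simp [ce3, kap3, hasSym_gT, hasSym_zero, hasSym_neg_one, HasSym.neg,
      HasSym.add_one, HasSym.sub_one]

lemma hasSym_ce4 : ∀ I J, HasSym (ce4 (gT ρ) I J) (kap4 I J) := by
  intro I J
  fin_cases I <;> fin_cases J <;>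
    simp [ce4, kap4, hasSym_gT, HasSym.neg]

section Filt

variable {i j : ℕ} {K : Matrix (Fin i) (Fin j) (Matrix (Fin N) (Fin N) UG)}
  {κ : Matrix (Fin i) (Fin j) SP}

lemma InC.eq_zero {z : ℤ} {x : Fin i → Fin N → UG} (hx : InC z x) (hz : z < 0) : x = 0 := by
  funext I p
  simpa [FI_neg hz] using hx I p

lemma inC_zero (z : ℤ) : InC z (0 : Fin i → Fin N → UG) := fun _ _ => zero_mem _

lemma inC_nat {m : ℕ} {x : Fin i → Fin N → UG} : InC (m : ℤ) x ↔ ∀ I p, x I p ∈ Fn m := by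
  simp [InC, FI_nat]

lemma dC_fn (hK : ∀ I J, HasSym (K I J) (κ I J)) {m : ℕ} {x : Fin i → Fin N → UG}
    (hx : ∀ I p, x I p ∈ Fn m) (J : Fin j) (q : Fin N) :
    dC K x J q ∈ Fn (m + 1) ∧
      sym (m + 1) (dC K x J q) = ((fun I => sym m (x I q)) ᵥ* κ) J := by
  have e : dC K x J q = ∑ I, ∑ p, x I p * K I J p q := by
    simp [dC, vecMul, dotProduct, Finset.sum_apply]
  rw [e]
  refine ⟨sum_mem fun I _ => sum_mem fun p _ => (hK I J m p q _ (hx I p)).1, ?_⟩
  simp only [map_sum, vecMul, dotProduct]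
  refine Finset.sum_congr rfl fun I _ => ?_
  rw [Finset.sum_congr rfl fun p _ => (hK I J m p q _ (hx I p)).2]
  simp

lemma dC_inC_of (hK : ∀ I J, HasSym (K I J) (κ I J)) {z : ℤ} {x : Fin i → Fin N → UG}
    (hx : InC z x) : InC (z + 1) (dC K x) := by
  rcases lt_or_ge z 0 with hz | hz
  · rw [hx.eq_zero hz, dC_zero]; exact inC_zero _
  · obtain ⟨m, rfl⟩ := Int.eq_ofNat_of_zero_le hz
    intro J q
    rw [show ((m : ℤ) + 1) = ((m + 1 : ℕ) : ℤ) by push_cast; rfl, FI_nat]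
    exact (dC_fn hK (inC_nat.1 hx) J q).1

/-- Lifting exactness from symbols to the filtered complex. -/
theorem descend (hK : ∀ I J, HasSym (K I J) (κ I J)) (kill : (Fin j → Fin N → UG) → Prop)
    (hkill : ∀ x y, kill x → kill (x - dC K y))
    (hsym : ∀ (m : ℕ) (x : Fin j → Fin N → UG), (∀ I p, x I p ∈ Fn m) → kill x →
      ∀ q, ∃ t : Fin i → SP, Low m t ∧ t ᵥ* κ = fun J => sym m (x J q))
    {z : ℤ} {x : Fin j → Fin N → UG} (hx : InC z x) (h : kill x) :
    ∃ y, InC (z - 1) y ∧ dC K y = x := by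
  suffices H : ∀ (n : ℕ) (z : ℤ), z < n → ∀ x : Fin j → Fin N → UG, InC z x → kill x →
      ∃ y, InC (z - 1) y ∧ dC K y = x from
    H (z.toNat + 1) z (by omega) x hx h
  intro n
  induction n with
  | zero =>
    intro z hz x hx _
    exact ⟨0, inC_zero _, by rw [dC_zero, hx.eq_zero (by simpa using hz)]⟩
  | succ n ih =>
    intro z hz x hx h
    rcases lt_or_ge z 0 with hz0 | hz0
    · exact ⟨0, inC_zero _, by rw [dC_zero, hx.eq_zero hz0]⟩
    obtain ⟨m, rfl⟩ := Int.eq_ofNat_of_zero_le hz0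
    have hxm := inC_nat.1 hx
    choose t ht hts using hsym m x hxm h
    set y : Fin i → Fin N → UG := fun I q => lift0 (t q I) with hy
    have hy1 : InC ((m : ℤ) - 1) y := by
      intro I q
      rcases Nat.eq_zero_or_pos m with hm | hm
      · simp [hy, (ht q).2 hm]
      · rw [show (m : ℤ) - 1 = ((m - 1 : ℕ) : ℤ) by omega, FI_nat]
        exact lift0_mem ((ht q).1 I)
    have hy2 : InC ((m : ℤ) - 1) (x - dC K y) := by
      intro J q
      show x J q - dC K y J q ∈ _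
      rcases Nat.eq_zero_or_pos m with hm | hm
      · subst hm
        have hy0 : y = 0 := hy1.eq_zero (by norm_num)
        have h0 : sym 0 (x J q) = 0 := by
          rw [← congrFun (hts q) J, (ht q).2 rfl]
          simp [vecMul]
        simpa [hy0, dC_zero] using mem_of_sym_eq_zero (hxm J q) h0
      · have hyf : ∀ I p, y I p ∈ Fn (m - 1) := fun I p => lift0_mem ((ht p).1 I)
        obtain ⟨h1, h2⟩ := dC_fn hK hyf J q
        rw [Nat.sub_add_cancel hm] at h1 h2
        refine mem_of_sym_eq_zero (sub_mem (hxm J q) h1) ?_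
        rw [map_sub, h2, sub_eq_zero]
        rw [← congrFun (hts q) J]
        simp only [vecMul, dotProduct]
        exact Finset.sum_congr rfl fun I _ => by rw [hy, sym_lift0 ((ht q).1 I)]
    obtain ⟨y', hy'1, hy'2⟩ := ih ((m : ℤ) - 1) (by omega) _ hy2 (hkill x y h)
    refine ⟨y + y', fun I q => add_mem (hy1 I q) (FI_mono (by omega) (hy'1 I q)), ?_⟩
    rw [dC_add, hy'2]
    abel

lemma sym_kernel (hK : ∀ I J, HasSym (K I J) (κ I J)) {m : ℕ} {x : Fin i → Fin N → UG}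
    (hx : ∀ I p, x I p ∈ Fn m) (h : dC K x = 0) (q : Fin N) :
    (fun I => sym m (x I q)) ᵥ* κ = 0 := by
  funext J
  have e := (dC_fn hK hx J q).2
  rw [h] at e
  simpa using e.symm

end Filt

theorem dC_inC1 {z : ℤ} {x : Fin 4 → Fin N → UG} (hx : InC z x) :
    InC (z + 1) (dC (ce1 (gT ρ)) x) := dC_inC_of hasSym_ce1 hx

theorem dC_inC2 {z : ℤ} {x : Fin 6 → Fin N → UG} (hx : InC z x) :
    InC (z + 1) (dC (ce2 (gT ρ)) x) := dC_inC_of hasSym_ce2 hx

theorem dC_inC3 {z : ℤ} {x : Fin 4 → Fin N → UG} (hx : InC z x) :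
    InC (z + 1) (dC (ce3 (gT ρ)) x) := dC_inC_of hasSym_ce3 hx

theorem dC_inC4 {z : ℤ} {x : Fin 1 → Fin N → UG} (hx : InC z x) :
    InC (z + 1) (dC (ce4 (gT ρ)) x) := dC_inC_of hasSym_ce4 hx

theorem dC_inj4 {z : ℤ} {x : Fin 1 → Fin N → UG} (hx : InC z x)
    (h : dC (ce4 (gT ρ)) x = 0) : x = 0 := by
  obtain ⟨y, -, hy⟩ := descend (i := 0) (K := 0) (κ := 0) (fun I => I.elim0)
    (fun x => dC (ce4 (gT ρ)) x = 0) (fun x y h => by rw [dC_zero_mat, sub_zero]; exact h)
    (fun m x hx h q => ⟨0, ⟨fun I => I.elim0, fun _ => rfl⟩, by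
      rw [kap4_injective (sym_kernel hasSym_ce4 hx h q)]
      simp⟩) hx h
  rw [← hy, dC_zero_mat]

theorem exact3 (hρ : IsRep ρ) {z : ℤ} {x : Fin 4 → Fin N → UG} (hx : InC z x)
    (h : dC (ce3 (gT ρ)) x = 0) : ∃ y, InC (z - 1) y ∧ dC (ce4 (gT ρ)) y = x :=
  descend hasSym_ce4 (fun x => dC (ce3 (gT ρ)) x = 0)
    (fun x y h => by rw [dC_sub, h, dC_comp4 hρ, sub_zero])
    (fun m x hx h q =>
      koszul3 (fun I => sym_isHomogeneous m _) (sym_kernel hasSym_ce3 hx h q)) hx h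

theorem exact2 (hρ : IsRep ρ) {z : ℤ} {x : Fin 6 → Fin N → UG} (hx : InC z x)
    (h : dC (ce2 (gT ρ)) x = 0) : ∃ y, InC (z - 1) y ∧ dC (ce3 (gT ρ)) y = x :=
  descend hasSym_ce3 (fun x => dC (ce2 (gT ρ)) x = 0)
    (fun x y h => by rw [dC_sub, h, dC_comp3 hρ, sub_zero])
    (fun m x hx h q =>
      koszul2 (fun I => sym_isHomogeneous m _) (sym_kernel hasSym_ce2 hx h q)) hx h

theorem exact1 (hρ : IsRep ρ) {z : ℤ} {x : Fin 4 → Fin N → UG} (hx : InC z x)
    (h : dC (ce1 (gT ρ)) x = 0) : ∃ y, InC (z - 1) y ∧ dC (ce2 (gT ρ)) y = x :=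
  descend hasSym_ce2 (fun x => dC (ce1 (gT ρ)) x = 0)
    (fun x y h => by rw [dC_sub, h, dC_comp2 hρ, sub_zero])
    (fun m x hx h q =>
      koszul1 (fun I => sym_isHomogeneous m _) (sym_kernel hasSym_ce1 hx h q)) hx h

theorem epsC_sub (hρ : IsRep ρ) (x y : Fin 1 → Fin N → UG) :
    epsC ρ hρ (x - y) = epsC ρ hρ x - epsC ρ hρ y := by
  funext q
  simp [epsC, Finset.sum_sub_distrib]

theorem exact0 (hρ : IsRep ρ) {z : ℤ} {x : Fin 1 → Fin N → UG} (hx : InC z x)
    (h : epsC ρ hρ x = 0) : ∃ y, InC (z - 1) y ∧ dC (ce1 (gT ρ)) y = x := by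
  refine descend hasSym_ce1 (fun x => epsC ρ hρ x = 0)
    (fun x y h => by rw [epsC_sub, h, epsC_comp hρ, sub_zero]) (fun m x hx h q => ?_) hx h
  rcases Nat.eq_zero_or_pos m with rfl | hm
  · have hc : ∀ p, ∃ r : ℚ, r • (1 : UG) = x 0 p := fun p => by
      have h' := hx 0 p
      rwa [Fn_zero, Submodule.one_eq_span, Submodule.mem_span_singleton] at h'
    choose c hc using hc
    have hq : c q = 0 := by
      have e := congrFun h q
      simpa [epsC, ← hc, Matrix.one_apply] using e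
    refine ⟨0, ⟨fun I => isHomogeneous_zero _ _ _, fun _ => rfl⟩, ?_⟩
    funext J
    fin_cases J
    simp [← hc, hq, vecMul, dotProduct]
  · exact koszul0 (fun I => sym_isHomogeneous m _) hm.ne'

/-! ### The operator `Dm` -/

lemma det_ne_zero :
    X ((0 : Fin 2), (0 : Fin 2)) * X (1, 1) - X (0, 1) * X (1, 0) ≠ (0 : SP) := by
  intro h
  have e := congrArg (eval fun p : Gix => (kd p.1 p.2 : ℚ)) h
  simp [kd] at e

lemma Dm_sub (u v : Fin 2 → UG) : Dm (u - v) = Dm u - Dm v := by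
  funext i
  simp [Dm, mul_sub, Finset.sum_sub_distrib]
  abel

lemma Dm_step {m : ℕ} {u : Fin 2 → UG} (hu : ∀ i, u i ∈ Fn m) (h : ∀ i, Dm u i ∈ Fn m) :
    ∀ i, u i ∈ FI ((m : ℤ) - 1) := by
  have e : ∀ i, X ((0 : Fin 2), i) * sym m (u 0) + X ((1 : Fin 2), i) * sym m (u 1) = 0 := by
    intro i
    have h' := sym_of_mem (h i) (Nat.lt_succ_self m)
    rw [Dm, map_add, map_sum, sym_of_mem (hu i) (Nat.lt_succ_self m), add_zero,
      Fin.sum_univ_two, sym_gE_mul (hu 0), sym_gE_mul (hu 1)] at h'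
    exact h'
  have h0 := e 0
  have h1 := e 1
  have s0 : sym m (u 0) = 0 := (mul_eq_zero.1 (show (_ : SP) * sym m (u 0) = 0 by
    linear_combination (X ((1 : Fin 2), (1 : Fin 2))) * h0 - X (1, 0) * h1)).resolve_left det_ne_zero
  have s1 : sym m (u 1) = 0 := (mul_eq_zero.1 (show (_ : SP) * sym m (u 1) = 0 by
    linear_combination (X ((0 : Fin 2), (0 : Fin 2))) * h1 - X (0, 1) * h0)).resolve_left det_ne_zero
  intro i
  fin_cases i
  · exact mem_of_sym_eq_zero (hu 0) s0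
  · exact mem_of_sym_eq_zero (hu 1) s1

theorem Dm_strict (u : Fin 2 → UG) {z : ℤ} (h : ∀ i, Dm u i ∈ FI (z + 1)) :
    ∀ i, u i ∈ FI z := by
  choose m hm using fun i => exists_mem_Fn (u i)
  set M := max (m 0) (m 1)
  have hM : ∀ i, u i ∈ FI (M : ℤ) := fun i => by
    rw [FI_nat]
    refine Fn_mono ?_ (hm i)
    fin_cases i
    · exact le_max_left _ _
    · exact le_max_right _ _
  suffices H : ∀ (k : ℕ) (w : ℤ), w ≤ z + k → (∀ i, u i ∈ FI w) → ∀ i, u i ∈ FI z from
    H ((M : ℤ) - z).toNat M (by omega) hM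
  intro k
  induction k with
  | zero => exact fun w hw hu i => FI_mono (by simpa using hw) (hu i)
  | succ k ih =>
    intro w hw hu
    rcases le_or_gt w z with hwz | hwz
    · exact fun i => FI_mono hwz (hu i)
    rcases lt_or_ge w 0 with hw0 | hw0
    · intro i
      have h' := hu i
      rw [FI_neg hw0, Submodule.mem_bot] at h'
      rw [h']
      exact zero_mem _
    obtain ⟨n, rfl⟩ := Int.eq_ofNat_of_zero_le hw0
    refine ih ((n : ℤ) - 1) (by omega) (Dm_step (fun i => ?_) fun i => ?_)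
    · simpa [FI_nat] using hu i
    · rw [← FI_nat]; exact FI_mono (by omega) (h i)

theorem Dm_injective : Function.Injective Dm := by
  intro u v huv
  have h : Dm (u - v) = 0 := by rw [Dm_sub, huv, sub_self]
  funext i
  have h' := Dm_strict (u - v) (z := -1) (fun j => by rw [h]; exact zero_mem _) i
  rw [FI_neg (by norm_num), Submodule.mem_bot] at h'
  exact sub_eq_zero.1 h'

end

end Vale.Agent.P176
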