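import Vale.Agent.P176.Alg
import Vale.Agent.P176.Exactness

/-!
P176: the complex of projective `AR`-modules over `FMod (N + 1)` and its homology.
-/

namespace Vale.Agent.P176

open Matrix TrivSqZeroExt MulOpposite

noncomputable section

variable {M c c' c'' c''' : ℕ}

/-- `Dm` applied to a pair of tuples. -/
def DC (Y : Fin 2 → Fin c → Fin M → UG) : Fin 2 → Fin c → Fin M → UG :=
  fun i I p => Dm (fun j => Y j I p) i

lemma vecMul_sum_apply (x : Fin c → Fin M → UG)
    (K : Matrix (Fin c) (Fin c') (Matrix (Fin M) (Fin M) UG)) (J : Fin c') (q : Fin M) :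
    dC K x J q = ∑ I, ∑ p, x I p * K I J p q := by
  simp [dC, Finset.sum_apply, Matrix.vecMul, dotProduct]

lemma dC_DC (K : Matrix (Fin c) (Fin c') (Matrix (Fin M) (Fin M) UG))
    (Y : Fin 2 → Fin c → Fin M → UG) :
    (fun i => dC K (DC Y i)) = DC (fun i => dC K (Y i)) := by
  funext i J q
  simp only [vecMul_sum_apply, DC, Dm, add_mul, Finset.sum_mul, Finset.mul_sum,
    Finset.sum_add_distrib, mul_assoc]
  congr 1
  conv_rhs => rw [Finset.sum_comm]
  refine Finset.sum_congr rfl fun I _ => ?_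
  exact Finset.sum_comm

lemma inC_sub {z : ℤ} {x y : Fin c → Fin M → UG} (hx : InC z x) (hy : InC z y) :
    InC z (x - y) := fun I p => sub_mem (hx I p) (hy I p)

lemma inC_DC {z : ℤ} {Y : Fin 2 → Fin c → Fin M → UG} (h : ∀ i, InC z (Y i)) (i : Fin 2) :
    InC (z + 1) (DC Y i) := fun I p => Dm_mem (fun j => h j I p) i

lemma DC_eq_zero {Y : Fin 2 → Fin c → Fin M → UG} (h : DC Y = 0) : Y = 0 := by
  funext i I p
  have : (fun j => Y j I p) = 0 := Dm_injective (by
    funext j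
    rw [show Dm (0 : Fin 2 → UG) j = 0 by simp [Dm]]
    exact congrFun (congrFun (congrFun h j) I) p)
  exact congrFun this i

/-- The classes of a pair of tuples. -/
def cls (Y : Fin 2 → Fin c → Fin M → UG) (I : Fin c) (p : Fin M) : Wq :=
  wmk fun i => Y i I p

lemma cls_eq_zero {Y : Fin 2 → Fin c → Fin M → UG} :
    (∀ I p, cls Y I p = 0) ↔ ∃ V, DC V = Y := by
  constructor
  · intro h
    choose V hV using fun I p => wmk_eq_zero.1 (h I p)
    exact ⟨fun i I p => V I p i, funext fun i => funext fun I => funext fun p =>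
      congrFun (hV I p) i⟩
  · rintro ⟨V, rfl⟩ I p
    exact wmk_eq_zero.2 ⟨fun j => V j I p, rfl⟩

lemma cls_eq {Y Y' : Fin 2 → Fin c → Fin M → UG} :
    cls Y = cls Y' ↔ ∃ V, DC V = Y - Y' := by
  rw [← cls_eq_zero]
  constructor
  · intro h I p
    have := congrFun (congrFun h I) p
    rw [cls, cls] at this
    show wmk ((fun i => Y i I p) - fun i => Y' i I p) = 0
    rw [map_sub, this, sub_self]
  · intro h
    funext I p
    have := h I p
    change wmk ((fun i => Y i I p) - fun i => Y' i I p) = 0 at this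
    rw [map_sub, sub_eq_zero] at this
    exact this

variable {k k' : Fin 5}

/-- The first components at a level. -/
def fstC (x : PP k c M) (t : Fin 5) : Fin c → Fin M → UG := fun I p => ((x I p).1 t).fst

/-- The second components at a level. -/
def sndC (x : PP k c M) (t : Fin 5) : Fin c → Fin M → Wq := fun I p => ((x I p).1 t).snd

lemma fstC_inC (x : PP k c M) (t : Fin 5) : InC (lev t - lev k) (fstC x t) :=
  fun I p => ((x I p).2 t).1

lemma exists_rep (x : PP k c M) (t : Fin 5) :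
    ∃ Y : Fin 2 → Fin c → Fin M → UG, (∀ i, InC (lev t + 1 - lev k) (Y i)) ∧
      cls Y = sndC x t := by
  choose V hV hV' using fun I p => mem_ZI.1 ((x I p).2 t).2
  exact ⟨fun i I p => V I p i, fun i I p => hV I p i, funext fun I => funext fun p => hV' I p⟩

lemma PP_ext {x y : PP k c M} (h1 : ∀ t, fstC x t = fstC y t) (h2 : ∀ t, sndC x t = sndC y t) :
    x = y := by
  funext I p
  refine Subtype.ext (funext fun t => TrivSqZeroExt.ext ?_ ?_)
  · exact congrFun (congrFun (h1 t) I) p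
  · exact congrFun (congrFun (h2 t) I) p

lemma exists_PP (k : Fin 5) (u : Fin 5 → Fin c → Fin M → UG)
    (Y : Fin 5 → Fin 2 → Fin c → Fin M → UG) (hu : ∀ t, InC (lev t - lev k) (u t))
    (hY : ∀ t i, InC (lev t + 1 - lev k) (Y t i)) :
    ∃ x : PP k c M, ∀ t, fstC x t = u t ∧ sndC x t = cls (Y t) := by
  refine ⟨fun I p => ⟨fun t => inl (u t I p) + inr (cls (Y t) I p), fun t => ?_⟩, fun t => ?_⟩
  · refine ⟨by simpa using hu t I p, ?_⟩
    simp only [snd_add, snd_inl, snd_inr, zero_add]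
    exact mem_ZI.2 ⟨_, fun i => hY t i I p, rfl⟩
  · constructor <;> funext I p <;> simp [fstC, sndC]

variable (hk : lev k = lev k' + 1) {K : Matrix (Fin c) (Fin c') (Matrix (Fin M) (Fin M) UG)}
  (hK : Lin K)

lemma fstC_dP (x : PP k c M) (t : Fin 5) : fstC (dP hk K hK x) t = dC K (fstC x t) := by
  funext J q
  show (dPfun K x J q t).fst = _
  simp [dPfun, vecMul_sum_apply, fstC, fst_sum]

lemma sndC_dP (x : PP k c M) (t : Fin 5) {Y : Fin 2 → Fin c → Fin M → UG}
    (hY : cls Y = sndC x t) : sndC (dP hk K hK x) t = cls (fun i => dC K (Y i)) := by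
  funext J q
  show (dPfun K x J q t).snd = _
  simp only [dPfun, snd_sum, snd_mul, snd_inl, smul_zero, zero_add, cls, fst_inl]
  have e : (fun i => dC K (Y i) J q) = ∑ I, ∑ p, fun i => Y i I p * K I J p q := by
    funext i
    simp [vecMul_sum_apply, Finset.sum_apply]
  rw [e, map_sum]
  refine Finset.sum_congr rfl fun I _ => ?_
  rw [map_sum]
  refine Finset.sum_congr rfl fun p _ => ?_
  rw [← op_smul_wmk]
  congr 1
  exact (congrFun (congrFun hY I) p).symm

lemma dP_comp {k'' : Fin 5} (hk' : lev k' = lev k'' + 1)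
    {K' : Matrix (Fin c') (Fin c'') (Matrix (Fin M) (Fin M) UG)} (hK' : Lin K')
    (h : ∀ x, dC K' (dC K x) = 0) (x : PP k c M) : dP hk' K' hK' (dP hk K hK x) = 0 := by
  refine PP_ext (fun t => ?_) (fun t => ?_)
  · rw [fstC_dP, fstC_dP, h]; rfl
  · obtain ⟨Y, -, hY⟩ := exists_rep x t
    rw [sndC_dP hk' hK' _ t (sndC_dP hk hK x t hY).symm]
    funext I p
    simp only [h, cls, Pi.zero_apply]
    exact map_zero wmk

/-- Cycles of `dP` are boundaries, levelwise. -/
lemma cycle_level {K₀ : Matrix (Fin c') (Fin c'') (Matrix (Fin M) (Fin M) UG)}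
    {K₂ : Matrix (Fin c''') (Fin c) (Matrix (Fin M) (Fin M) UG)}
    (hcomp : ∀ x, dC K₀ (dC K x) = 0)
    (he : ∀ z x, InC z x → dC K x = 0 → ∃ y, InC (z - 1) y ∧ dC K₂ y = x)
    (he₀ : ∀ z x, InC z x → dC K₀ x = 0 → ∃ y, InC (z - 1) y ∧ dC K y = x)
    (x : PP k c M) (hx : dP hk K hK x = 0) (t : Fin 5) :
    ∃ (u : Fin c''' → Fin M → UG) (Y : Fin 2 → Fin c''' → Fin M → UG),
      InC (lev t - lev k - 1) u ∧ (∀ i, InC (lev t + 1 - lev k - 1) (Y i)) ∧
      dC K₂ u = fstC x t ∧ cls (fun i => dC K₂ (Y i)) = sndC x t := by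
  have h1 : dC K (fstC x t) = 0 := by rw [← fstC_dP hk hK, hx]; rfl
  obtain ⟨u, hu, hu'⟩ := he _ _ (fstC_inC x t) h1
  obtain ⟨Y, hY, hY'⟩ := exists_rep x t
  have h2 := sndC_dP hk hK x t hY'
  rw [hx] at h2
  obtain ⟨V, hV⟩ := cls_eq_zero.1 (fun I p => (congrFun (congrFun h2 I) p).symm)
  have hVin : ∀ i, InC (lev t + 1 - lev k) (V i) := fun i I p => by
    refine Dm_strict (fun j => V j I p) (fun j => ?_) i
    rw [show Dm (fun j => V j I p) j = dC K (Y j) I p from congrFun (congrFun (congrFun hV j) I) p]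
    rw [vecMul_sum_apply]
    exact sum_mem fun a _ => sum_mem fun b _ => FI_mul_mem (hY j a b) (hK a I b p)
  have hV0 : ∀ i, dC K₀ (V i) = 0 := by
    have : DC (fun i => dC K₀ (V i)) = 0 := by
      rw [← dC_DC, hV]; funext i; exact hcomp (Y i)
    exact fun i => congrFun (DC_eq_zero this) i
  choose W hW hW' using fun i => he₀ _ _ (hVin i) (hV0 i)
  have hcy : ∀ i, dC K (Y i - DC W i) = 0 := fun i => by
    have e := congrFun (dC_DC K W) i
    rw [dC_sub, e]
    simp only [hW']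
    rw [hV, sub_self]
  have hin : ∀ i, InC (lev t + 1 - lev k) (Y i - DC W i) := fun i =>
    inC_sub (hY i) (fun I p => by simpa using inC_DC hW i I p)
  choose Y₂ hY₂ hY₂' using fun i => he _ _ (hin i) (hcy i)
  refine ⟨u, Y₂, hu, hY₂, hu', ?_⟩
  rw [← hY']
  exact (cls_eq.2 ⟨W, by funext i; rw [Pi.sub_apply, hY₂' i]; abel⟩).symm

lemma dP_exact {k₂ : Fin 5} (hk₂ : lev k₂ = lev k + 1)
    {K₀ : Matrix (Fin c') (Fin c'') (Matrix (Fin M) (Fin M) UG)}
    {K₂ : Matrix (Fin c''') (Fin c) (Matrix (Fin M) (Fin M) UG)} (hK₂ : Lin K₂)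
    (hcomp : ∀ x, dC K₀ (dC K x) = 0) (hcomp₂ : ∀ x, dC K (dC K₂ x) = 0)
    (he : ∀ z x, InC z x → dC K x = 0 → ∃ y, InC (z - 1) y ∧ dC K₂ y = x)
    (he₀ : ∀ z x, InC z x → dC K₀ x = 0 → ∃ y, InC (z - 1) y ∧ dC K y = x) :
    LinearMap.ker (dP hk K hK) = LinearMap.range (dP hk₂ K₂ hK₂) := by
  refine le_antisymm (fun x hx => ?_) ?_
  · choose u Y hu hY hu' hY' using cycle_level hk hK hcomp he he₀ x hx
    obtain ⟨y, hy⟩ := exists_PP k₂ u Y (fun t => by rw [hk₂, ← sub_sub]; exact hu t)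
      (fun t i => by rw [hk₂, ← sub_sub]; exact hY t i)
    refine ⟨y, PP_ext (fun t => ?_) (fun t => ?_)⟩
    · rw [fstC_dP, (hy t).1, hu']
    · rw [sndC_dP hk₂ hK₂ y t (hy t).2.symm, hY']
  · rintro _ ⟨y, rfl⟩
    exact dP_comp hk₂ hK₂ hk hK hcomp₂ y

lemma dP_injective {K₀ : Matrix (Fin c') (Fin c'') (Matrix (Fin M) (Fin M) UG)}
    (hcomp : ∀ x, dC K₀ (dC K x) = 0)
    (hinj : ∀ z x, InC z x → dC K x = 0 → x = 0)
    (he₀ : ∀ z x, InC z x → dC K₀ x = 0 → ∃ y, InC (z - 1) y ∧ dC K y = x) :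
    LinearMap.ker (dP hk K hK) = ⊥ := by
  refine (Submodule.eq_bot_iff _).2 fun x hx => ?_
  have h := cycle_level (K₂ := (0 : Matrix (Fin 0) (Fin c) (Matrix (Fin M) (Fin M) UG))) hk hK hcomp
    (fun z y hy hy' => ⟨0, fun I => I.elim0, by rw [hinj z y hy hy']; funext J; simp [dC]⟩)
    he₀ x hx
  refine PP_ext (fun t => ?_) (fun t => ?_) <;> obtain ⟨u, Y, -, -, hu, hY⟩ := h t
  · rw [← hu]; funext J; simp [dC]; rfl
  · rw [← hY]; funext I p
    simp only [cls, dC, Finset.univ_eq_empty, Finset.sum_empty, Pi.zero_apply, sndC]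
    exact map_zero wmk

end

end Vale.Agent.P176
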