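import Vale.Agent.P176.Homology

/-!
P176: the bottom of the complex over `FMod (N + 1)`: the augmentation and the two maps to
`FMod N` which measure the homology.
-/

namespace Vale.Agent.P176

open Matrix TrivSqZeroExt MulOpposite

noncomputable section

/-- The twisted generators for the forms of degree `M - 1`. -/
abbrev gR (M : ℕ) : Fin 2 → Fin 2 → Matrix (Fin M) (Fin M) UG := gT (rhoN M)

/-- The augmentation of the twisted complex for the forms of degree `M - 1`. -/
abbrev eps (M : ℕ) (x : Fin 1 → Fin M → UG) : Fin M → ℚ := epsC (rhoN M) (isRep_rhoN M) x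

section linear

variable {M c c' : ℕ}

/-- All entries are in degree at most one. -/
def IsL (X : Matrix (Fin M) (Fin M) UG) : Prop := ∀ p q, X p q ∈ FI 1

lemma isL_zero : IsL (0 : Matrix (Fin M) (Fin M) UG) := fun _ _ => zero_mem _

lemma isL_one : IsL (1 : Matrix (Fin M) (Fin M) UG) := fun p q => by
  rw [Matrix.one_apply]
  split_ifs
  · exact one_mem_FI zero_le_one
  · exact zero_mem _

lemma isL_neg {X : Matrix (Fin M) (Fin M) UG} (h : IsL X) : IsL (-X) :=
  fun p q => neg_mem (h p q)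

lemma isL_add {X Y : Matrix (Fin M) (Fin M) UG} (h : IsL X) (h' : IsL Y) : IsL (X + Y) :=
  fun p q => add_mem (h p q) (h' p q)

lemma isL_sub {X Y : Matrix (Fin M) (Fin M) UG} (h : IsL X) (h' : IsL Y) : IsL (X - Y) :=
  fun p q => sub_mem (h p q) (h' p q)

lemma isL_gR (a b : Fin 2) : IsL (gR M a b) := fun p q => by
  rw [gR, gT, Matrix.sub_apply, Matrix.diagonal_apply, Matrix.map_apply]
  refine sub_mem ?_ ?_
  · split_ifs
    · exact gE_mem_FI le_rfl a b
    · exact zero_mem _
  · rw [Algebra.algebraMap_eq_smul_one]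
    exact Submodule.smul_mem _ _ (one_mem_FI zero_le_one)

lemma lin_ce1 : Lin (ce1 (gR M)) := by
  intro I J
  show IsL _
  fin_cases I <;> fin_cases J <;> simp [ce1] <;>
    (repeat' first
      | exact isL_gR _ _ | exact isL_one | exact isL_zero
      | apply isL_sub | apply isL_add | apply isL_neg)

lemma lin_ce2 : Lin (ce2 (gR M)) := by
  intro I J
  show IsL _
  fin_cases I <;> fin_cases J <;> simp [ce2] <;>
    (repeat' first
      | exact isL_gR _ _ | exact isL_one | exact isL_zero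
      | apply isL_sub | apply isL_add | apply isL_neg)

lemma lin_ce3 : Lin (ce3 (gR M)) := by
  intro I J
  show IsL _
  fin_cases I <;> fin_cases J <;> simp [ce3] <;>
    (repeat' first
      | exact isL_gR _ _ | exact isL_one | exact isL_zero
      | apply isL_sub | apply isL_add | apply isL_neg)

lemma lin_ce4 : Lin (ce4 (gR M)) := by
  intro I J
  show IsL _
  fin_cases I <;> fin_cases J <;> simp [ce4] <;>
    (repeat' first
      | exact isL_gR _ _ | exact isL_one | exact isL_zero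
      | apply isL_sub | apply isL_add | apply isL_neg)

lemma lev10 : lev 1 = lev 0 + 1 := by simp [lev]

lemma lev21 : lev 2 = lev 1 + 1 := by simp [lev]

lemma lev32 : lev 3 = lev 2 + 1 := by simp [lev]

lemma lev43 : lev 4 = lev 3 + 1 := by simp [lev]

/-- The differential at level one. -/
def d1 (M : ℕ) : PP 1 4 M →ₗ[AR] PP 0 1 M := dP lev10 _ lin_ce1

/-- The differential at level two. -/
def d2 (M : ℕ) : PP 2 6 M →ₗ[AR] PP 1 4 M := dP lev21 _ lin_ce2

/-- The differential at level three. -/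
def d3 (M : ℕ) : PP 3 4 M →ₗ[AR] PP 2 6 M := dP lev32 _ lin_ce3

/-- The differential at level four. -/
def d4 (M : ℕ) : PP 4 1 M →ₗ[AR] PP 3 4 M := dP lev43 _ lin_ce4

lemma ker_d2 : LinearMap.ker (d2 M) = LinearMap.range (d3 M) :=
  dP_exact lev21 lin_ce2 lev32 lin_ce3 (dC_comp2 (isRep_rhoN M)) (dC_comp3 (isRep_rhoN M))
    (fun _ _ hx h => exact2 (isRep_rhoN M) hx h) (fun _ _ hx h => exact1 (isRep_rhoN M) hx h)

lemma ker_d3 : LinearMap.ker (d3 M) = LinearMap.range (d4 M) :=
  dP_exact lev32 lin_ce3 lev43 lin_ce4 (dC_comp3 (isRep_rhoN M)) (dC_comp4 (isRep_rhoN M))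
    (fun _ _ hx h => exact3 (isRep_rhoN M) hx h) (fun _ _ hx h => exact2 (isRep_rhoN M) hx h)

lemma ker_d4 : LinearMap.ker (d4 M) = ⊥ :=
  dP_injective lev43 lin_ce4 (dC_comp4 (isRep_rhoN M))
    (fun _ _ hx h => dC_inj4 hx h) (fun _ _ hx h => exact3 (isRep_rhoN M) hx h)

/-- Left multiplication of a tuple. -/
def lmC (u : UG) (x : Fin c → Fin M → UG) : Fin c → Fin M → UG := fun I p => u * x I p

/-- The shifted left action on a pair of tuples. -/
def psiC (u : UG) (Y : Fin 2 → Fin c → Fin M → UG) : Fin 2 → Fin c → Fin M → UG :=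
  fun i I p => (psi u *ᵥ fun j => Y j I p) i

/-- The product of a pair with a tuple. -/
def bC (b : Fin 2 → UG) (x : Fin c → Fin M → UG) : Fin 2 → Fin c → Fin M → UG :=
  fun i I p => b i * x I p

/-- `DC` as a linear map. -/
def DCL : (Fin 2 → Fin c → Fin M → UG) →ₗ[ℚ] (Fin 2 → Fin c → Fin M → UG) where
  toFun := DC
  map_add' x y := by
    funext i I p; simp [DC, Dm, mul_add, Finset.sum_add_distrib]; abel
  map_smul' r x := by funext i I p; simp [DC, Dm, ← Finset.smul_sum]

lemma DC_sub (x y : Fin 2 → Fin c → Fin M → UG) : DC (x - y) = DC x - DC y :=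
  map_sub DCL x y

lemma DC_psiC (u : UG) (V : Fin 2 → Fin c → Fin M → UG) : DC (psiC u V) = psiC u (DC V) := by
  funext i I p
  exact congrFun (Dm_psi u fun j => V j I p) i

variable (K : Matrix (Fin c) (Fin c') (Matrix (Fin M) (Fin M) UG))

/-- `dC` as a linear map. -/
def dCL : (Fin c → Fin M → UG) →ₗ[ℚ] (Fin c' → Fin M → UG) where
  toFun := dC K
  map_add' := dC_add K
  map_smul' r x := by funext J; simp [dC, Matrix.smul_vecMul, Finset.smul_sum]

lemma dC_sum {ι : Type*} (S : Finset ι) (x : ι → Fin c → Fin M → UG) :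
    dC K (∑ s ∈ S, x s) = ∑ s ∈ S, dC K (x s) :=
  map_sum (dCL K) x S

lemma dC_lmC (u : UG) (x : Fin c → Fin M → UG) : dC K (lmC u x) = lmC u (dC K x) := by
  funext J q; simp [vecMul_sum_apply, lmC, Finset.mul_sum, mul_assoc]

lemma dC_bC (b : Fin 2 → UG) (x : Fin c → Fin M → UG) :
    (fun i => dC K (bC b x i)) = bC b (dC K x) := by
  funext i
  exact dC_lmC K (b i) x

lemma dC_psiC (u : UG) (Y : Fin 2 → Fin c → Fin M → UG) :
    (fun i => dC K (psiC u Y i)) = psiC u (fun i => dC K (Y i)) := by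
  funext i J q
  simp only [vecMul_sum_apply, psiC, Matrix.mulVec, dotProduct, Finset.sum_mul, Finset.mul_sum,
    mul_assoc]
  conv_rhs => rw [Finset.sum_comm]
  exact Finset.sum_congr rfl fun I _ => Finset.sum_comm

variable {k : Fin 5}

lemma fstC_smul (a : AR) (x : PP k c M) (t : Fin 5) :
    fstC (a • x) t = ∑ s, lmC (fstMat a t s) (fstC x s) := by
  funext I p
  show (∑ s, ent a t s * (x I p).1 s).fst = _
  simp [fst_sum, Finset.sum_apply, lmC, fstC, fstMat_apply]

lemma fstC_add (x y : PP k c M) (t : Fin 5) : fstC (x + y) t = fstC x t + fstC y t := rfl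

lemma sndC_add (x y : PP k c M) (t : Fin 5) : sndC (x + y) t = sndC x t + sndC y t := rfl

lemma cls_add (Y Y' : Fin 2 → Fin c → Fin M → UG) : cls (Y + Y') = cls Y + cls Y' := by
  funext I p; exact map_add wmk (fun i => Y i I p) (fun i => Y' i I p)

lemma cls_sum {ι : Type*} (S : Finset ι) (Y : ι → Fin 2 → Fin c → Fin M → UG) :
    cls (∑ s ∈ S, Y s) = ∑ s ∈ S, cls (Y s) := by
  funext I p
  simp only [Finset.sum_apply, cls]
  rw [← map_sum]
  congr 1
  funext i
  simp [Finset.sum_apply]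

lemma sndC_smul (a : AR) (x : PP k c M) (t : Fin 5) (Y : Fin 5 → Fin 2 → Fin c → Fin M → UG)
    (hY : ∀ s, cls (Y s) = sndC x s) (b : Fin 5 → Fin 2 → UG)
    (hb : ∀ s, wmk (b s) = (ent a t s).snd) :
    cls (∑ s, (psiC (fstMat a t s) (Y s) + bC (b s) (fstC x s))) = sndC (a • x) t := by
  funext I p
  show _ = (∑ s, ent a t s * (x I p).1 s).snd
  simp only [cls_sum, cls_add, Finset.sum_apply, Pi.add_apply, snd_sum, snd_mul]
  refine Finset.sum_congr rfl fun s _ => ?_
  congr 1
  · rw [fstMat_apply]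
    show wmk (psi _ *ᵥ fun j => Y s j I p) = _
    rw [← smul_wmk]
    congr 1
    exact congrFun (congrFun (hY s) I) p
  · show wmk (fun i => b s i * fstC x s I p) = _
    rw [← op_smul_wmk, hb]
    rfl

end linear

section eps

variable {M : ℕ}

lemma eps_eq (x : Fin 1 → Fin M → UG) :
    eps M x = ∑ p, actV M (x 0 p) (Pi.single p 1) := by
  funext q
  simp [eps, epsC, actV, rhoHat, Finset.sum_apply, Matrix.mulVec_single]

/-- `eps` as a linear map. -/
def epsL (M : ℕ) : (Fin 1 → Fin M → UG) →ₗ[ℚ] (Fin M → ℚ) where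
  toFun := eps M
  map_add' x y := by
    funext q; simp [eps, epsC, map_add, Finset.sum_add_distrib]
  map_smul' r x := by
    funext q; simp [eps, epsC, map_smul, Finset.mul_sum]

lemma eps_add (x y : Fin 1 → Fin M → UG) : eps M (x + y) = eps M x + eps M y :=
  map_add (epsL M) x y

lemma eps_sub (x y : Fin 1 → Fin M → UG) : eps M (x - y) = eps M x - eps M y :=
  map_sub (epsL M) x y

lemma eps_zero : eps M 0 = 0 := map_zero (epsL M)

lemma eps_sum {ι : Type*} (S : Finset ι) (x : ι → Fin 1 → Fin M → UG) :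
    eps M (∑ s ∈ S, x s) = ∑ s ∈ S, eps M (x s) :=
  map_sum (epsL M) x S

lemma eps_const (f : Fin M → ℚ) : eps M (fun _ p => algebraMap ℚ UG (f p)) = f := by
  funext q
  simp [eps, epsC, Matrix.algebraMap_matrix_apply, Finset.sum_ite_eq]

lemma eps_lmC (u : UG) (x : Fin 1 → Fin M → UG) : eps M (lmC u x) = actV M u (eps M x) := by
  rw [eps_eq, eps_eq, actV_sum_vec]
  simp [lmC, actV_mul]

lemma eps_DC (V : Fin 2 → Fin 1 → Fin M → UG) :
    (fun i => eps M (DC V i)) = DV (fun i => eps M (V i)) := by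
  funext i
  simp only [DV, eps_eq, DC, Dm, actV_add, actV_sum, map_sum, ← actV_gE, actV_mul, actV_sum_vec,
    Finset.sum_add_distrib]
  rw [Finset.sum_comm]

lemma eps_psiC (u : UG) (Y : Fin 2 → Fin 1 → Fin M → UG) :
    (fun i => eps M (psiC u Y i)) = psiV M u (fun i => eps M (Y i)) := by
  funext i
  simp only [psiV, eps_eq, psiC, Matrix.mulVec, dotProduct, actV_sum, actV_mul, actV_sum_vec]
  rw [Finset.sum_comm]

lemma eps_bC (b : Fin 2 → UG) (x : Fin 1 → Fin M → UG) :
    (fun i => eps M (bC b x i)) = fun i => actV M (b i) (eps M x) :=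
  funext fun i => eps_lmC (b i) x

end eps

section maps

variable {N : ℕ}

/-- The augmentation of the complex. -/
def epsHat (M : ℕ) : PP 0 1 M →ₗ[AR] FMod M where
  toFun x := fun t => eps M (fstC x t)
  map_add' x y := by
    funext t; exact eps_add _ _
  map_smul' a x := by
    funext t
    show eps M (fstC (a • x) t) = ∑ s, actV M (fstMat a t s) (eps M (fstC x s))
    rw [fstC_smul, eps_sum]
    exact Finset.sum_congr rfl fun s _ => eps_lmC _ _

lemma inC_const {M c : ℕ} {z : ℤ} (hz : 0 ≤ z) (f : Fin c → Fin M → ℚ) :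
    InC z (fun I p => algebraMap ℚ UG (f I p)) := fun I p => by
  show algebraMap ℚ UG (f I p) ∈ FI z
  rw [Algebra.algebraMap_eq_smul_one]
  exact Submodule.smul_mem _ _ (one_mem_FI hz)

lemma lev_nonneg (t : Fin 5) : 0 ≤ lev t := by simp [lev]

lemma epsHat_surjective (M : ℕ) : Function.Surjective (epsHat M) := by
  intro v
  obtain ⟨x, hx⟩ := exists_PP (c := 1) (M := M) 0
    (fun t _ p => algebraMap ℚ UG (v t p)) (fun _ _ => 0)
    (fun t => inC_const (by simp [lev]) fun _ p => v t p) (fun _ _ _ _ => zero_mem _)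
  refine ⟨x, funext fun t => ?_⟩
  show eps M (fstC x t) = v t
  rw [(hx t).1, eps_const]

lemma range_d1_le (M : ℕ) : LinearMap.range (d1 M) ≤ LinearMap.ker (epsHat M) := by
  rintro _ ⟨x, rfl⟩
  funext t
  show eps M (fstC (d1 M x) t) = 0
  rw [d1, fstC_dP]
  exact epsC_comp (isRep_rhoN M) _

/-- The homology map at level zero, as a function. -/
def th0fun (x : PP 0 1 (N + 1)) : FMod N :=
  fun t => curlV N fun i => eps (N + 1) ((exists_rep x t).choose i)

lemma th0fun_spec (x : PP 0 1 (N + 1)) (t : Fin 5) {Y : Fin 2 → Fin 1 → Fin (N + 1) → UG}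
    (hY : cls Y = sndC x t) : th0fun x t = curlV N fun i => eps (N + 1) (Y i) := by
  obtain ⟨W, hW⟩ := cls_eq.1 ((exists_rep x t).choose_spec.2.trans hY.symm)
  have e : (fun i => eps (N + 1) ((exists_rep x t).choose i))
      = DV (fun i => eps (N + 1) (W i)) + fun i => eps (N + 1) (Y i) := by
    funext i
    rw [← eps_DC, Pi.add_apply, ← eps_add, hW, Pi.sub_apply, sub_add_cancel]
  rw [th0fun, e, map_add, curlV_DV, zero_add]

/-- The homology map at level zero. -/
def th0 (N : ℕ) : LinearMap.ker (epsHat (N + 1)) →ₗ[AR] FMod N where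
  toFun x := th0fun x.1
  map_add' x y := by
    funext t
    obtain ⟨Y, -, hY⟩ := exists_rep x.1 t
    obtain ⟨Y', -, hY'⟩ := exists_rep y.1 t
    show th0fun (x.1 + y.1) t = th0fun x.1 t + th0fun y.1 t
    rw [th0fun_spec _ t hY, th0fun_spec _ t hY',
      th0fun_spec (x.1 + y.1) t (Y := Y + Y') (by rw [cls_add, hY, hY', sndC_add]), ← map_add]
    congr 1
    funext i
    exact eps_add _ _
  map_smul' a x := by
    funext t
    choose Y hYin hY using fun s => exists_rep x.1 s
    choose b hb using fun s => wmk_surjective (ent a t s).snd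
    have h0 : ∀ s, eps (N + 1) (fstC x.1 s) = 0 := fun s => congrFun x.2 s
    show th0fun (a • x.1) t = ∑ s, actV N (fstMat a t s) (th0fun x.1 s)
    rw [th0fun_spec _ t (sndC_smul a x.1 t Y hY b hb)]
    have e : (fun i => eps (N + 1)
          ((∑ s, (psiC (fstMat a t s) (Y s) + bC (b s) (fstC x.1 s))) i))
        = ∑ s, psiV (N + 1) (fstMat a t s) (fun i => eps (N + 1) (Y s i)) := by
      funext i
      rw [Finset.sum_apply, Finset.sum_apply, eps_sum]
      refine Finset.sum_congr rfl fun s _ => ?_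
      rw [Pi.add_apply, eps_add, ← congrFun (eps_psiC _ _) i, congrFun (eps_bC _ _) i, h0]
      simp [actV]
    rw [e, map_sum]
    exact Finset.sum_congr rfl fun s _ => by rw [curlV_psi, th0fun_spec _ s (hY s)]

lemma th0_surjective (N : ℕ) : Function.Surjective (th0 N) := by
  intro g
  obtain ⟨x, hx⟩ := exists_PP (c := 1) (M := N + 1) 0 (fun _ => 0)
    (fun t i _ p => algebraMap ℚ UG (((((N : ℚ) + 1)⁻¹) • iotaV N (g t) i) p))
    (fun _ _ _ => zero_mem _)
    (fun t i => inC_const (by simp [lev]; omega) fun _ p =>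
      ((((N : ℚ) + 1)⁻¹) • iotaV N (g t) i) p)
  refine ⟨⟨x, funext fun t => ?_⟩, funext fun t => ?_⟩
  · show eps (N + 1) (fstC x t) = 0
    rw [(hx t).1, eps_zero]
  · show th0fun x t = g t
    rw [th0fun_spec x t (hx t).2.symm]
    simp only [eps_const]
    rw [show (fun i => (((N : ℚ) + 1)⁻¹) • iotaV N (g t) i)
        = (((N : ℚ) + 1)⁻¹) • iotaV N (g t) from rfl, map_smul, curlV_iotaV, smul_smul,
      inv_mul_cancel₀ (by positivity), one_smul]

lemma DV_smul {M : ℕ} (r : ℚ) (u : Fin 2 → Fin M → ℚ) : DV (r • u) = r • DV u := by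
  funext i; simp [DV, Finset.smul_sum, map_smul]

lemma eq_DV_of_curlV {u : Fin 2 → Fin (N + 1) → ℚ} (h : curlV N u = 0) :
    DV (((N : ℚ) + 1)⁻¹ • u) = u := by
  have e := DV_decomp u
  rw [h, map_zero, add_zero] at e
  rw [DV_smul, ← e, smul_smul, inv_mul_cancel₀ (by positivity), one_smul]

lemma th0_eq_zero (x : LinearMap.ker (epsHat (N + 1))) :
    th0 N x = 0 ↔ x.1 ∈ LinearMap.range (d1 (N + 1)) := by
  constructor
  · intro h
    have key : ∀ t : Fin 5, ∃ (u : Fin 4 → Fin (N + 1) → UG)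
        (Y : Fin 2 → Fin 4 → Fin (N + 1) → UG), InC (lev t - lev 1) u ∧
        (∀ i, InC (lev t + 1 - lev 1) (Y i)) ∧ dC (ce1 (gR (N + 1))) u = fstC x.1 t ∧
        cls (fun i => dC (ce1 (gR (N + 1))) (Y i)) = sndC x.1 t := by
      intro t
      obtain ⟨u, hu, hu'⟩ := exact0 (isRep_rhoN _) (fstC_inC x.1 t) (congrFun x.2 t)
      obtain ⟨Y, hY, hY'⟩ := exists_rep x.1 t
      have hc : curlV N (fun i => eps (N + 1) (Y i)) = 0 := by
        rw [← th0fun_spec _ t hY']
        exact congrFun h t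
      have hv := eq_DV_of_curlV hc
      let W : Fin 2 → Fin 1 → Fin (N + 1) → UG := fun i _ p => algebraMap ℚ UG
        (((((N : ℚ) + 1)⁻¹) • fun j => eps (N + 1) (Y j)) i p)
      have hWe : (fun i => eps (N + 1) (DC W i)) = fun i => eps (N + 1) (Y i) := by
        rw [eps_DC]
        simp only [W, eps_const]
        exact hv
      have hW : ∀ i, InC (lev t) (W i) := fun i =>
        inC_const (lev_nonneg t) fun _ p =>
          (((((N : ℚ) + 1)⁻¹) • fun j => eps (N + 1) (Y j)) i p)
      choose Y₂ hY₂ hY₂' using fun i => exact0 (isRep_rhoN (N + 1))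
        (z := lev t + 1)
        (x := Y i - DC W i)
        (inC_sub (by simpa [lev] using hY i) (inC_DC hW i))
        (by show eps (N + 1) _ = 0; rw [eps_sub, congrFun hWe i, sub_self])
      refine ⟨u, Y₂, by simpa [lev] using hu, fun i => by simpa [lev] using hY₂ i, hu', ?_⟩
      rw [← hY']
      exact (cls_eq.2 ⟨W, by funext i; rw [Pi.sub_apply, hY₂' i]; abel⟩).symm
    choose u Y hu hY hu' hY' using key
    obtain ⟨y, hy⟩ := exists_PP 1 u Y hu hY
    refine ⟨y, PP_ext (fun t => ?_) (fun t => ?_)⟩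
    · rw [d1, fstC_dP, (hy t).1, hu']
    · rw [d1, sndC_dP lev10 lin_ce1 y t (hy t).2.symm, hY']
  · rintro ⟨y, hy⟩
    funext t
    obtain ⟨Y, -, hY⟩ := exists_rep y t
    show th0fun x.1 t = 0
    rw [← hy, d1, th0fun_spec _ t (sndC_dP lev10 lin_ce1 y t hY).symm]
    rw [show (fun i => eps (N + 1) (dC (ce1 (gR (N + 1))) (Y i))) = 0 from
      funext fun i => epsC_comp (isRep_rhoN (N + 1)) (Y i)]
    exact map_zero _

lemma exists_YV {M : ℕ} (x : LinearMap.ker (d1 M)) (t : Fin 5) :
    ∃ p : (Fin 2 → Fin 4 → Fin M → UG) × (Fin 2 → Fin 1 → Fin M → UG),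
      (∀ i, InC (lev t) (p.1 i)) ∧ (∀ i, InC (lev t) (p.2 i)) ∧ cls p.1 = sndC x.1 t ∧
        DC p.2 = fun i => dC (ce1 (gR M)) (p.1 i) := by
  obtain ⟨Y, hY, hY'⟩ := exists_rep x.1 t
  have h2 := sndC_dP (k' := 0) lev10 lin_ce1 x.1 t hY'
  rw [show dP (k' := 0) lev10 _ lin_ce1 x.1 = 0 from x.2] at h2
  obtain ⟨V, hV⟩ := cls_eq_zero.1 fun I p => (congrFun (congrFun h2 I) p).symm
  have hY0 : ∀ i, InC (lev t) (Y i) := fun i => by simpa [lev] using hY i
  refine ⟨(Y, V), hY0, fun i I p => ?_, hY', hV⟩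
  refine Dm_strict (fun j => V j I p) (fun j => ?_) i
  rw [show Dm (fun j => V j I p) j = dC (ce1 (gR M)) (Y j) I p from
    congrFun (congrFun (congrFun hV j) I) p, vecMul_sum_apply]
  exact sum_mem fun a _ => sum_mem fun b _ => FI_mul_mem (hY0 j a b) (lin_ce1 a I b p)

/-- The homology map at level one, as a function. -/
def th1fun (x : LinearMap.ker (d1 (N + 1))) : FMod N :=
  fun t => curlV N fun i => eps (N + 1) ((exists_YV x t).choose.2 i)

lemma th1fun_spec (x : LinearMap.ker (d1 (N + 1))) (t : Fin 5)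
    {Y : Fin 2 → Fin 4 → Fin (N + 1) → UG} {V : Fin 2 → Fin 1 → Fin (N + 1) → UG}
    (hY : cls Y = sndC x.1 t) (hV : DC V = fun i => dC (ce1 (gR (N + 1))) (Y i)) :
    th1fun x t = curlV N fun i => eps (N + 1) (V i) := by
  obtain ⟨-, -, hY', hV'⟩ := (exists_YV x t).choose_spec
  obtain ⟨W, hW⟩ := cls_eq.1 (hY'.trans hY.symm)
  set Y₀ := (exists_YV x t).choose.1
  set V₀ := (exists_YV x t).choose.2
  have e : DC (V₀ - V - fun i => dC (ce1 (gR (N + 1))) (W i)) = 0 := by
    rw [DC_sub, DC_sub, ← dC_DC, hW, hV, hV']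
    funext i
    simp [dC_sub]
  have e' : (fun i => eps (N + 1) (V₀ i)) = fun i => eps (N + 1) (V i) := by
    funext i
    have h := congrFun (DC_eq_zero e) i
    rw [Pi.sub_apply, Pi.sub_apply, Pi.zero_apply, sub_eq_zero] at h
    have h' := congrArg (eps (N + 1)) h
    rw [eps_sub] at h'
    exact sub_eq_zero.1 (h'.trans (epsC_comp (isRep_rhoN (N + 1)) (W i)))
  exact congrArg (curlV N) e'

/-- The homology map at level one. -/
def th1 (N : ℕ) : LinearMap.ker (d1 (N + 1)) →ₗ[AR] FMod N where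
  toFun := th1fun
  map_add' x y := by
    funext t
    obtain ⟨⟨Y, V⟩, -, -, hY, hV⟩ := exists_YV x t
    obtain ⟨⟨Y', V'⟩, -, -, hY', hV'⟩ := exists_YV y t
    show th1fun (x + y) t = th1fun x t + th1fun y t
    rw [th1fun_spec x t hY hV, th1fun_spec y t hY' hV',
      th1fun_spec (x + y) t (Y := Y + Y') (V := V + V')
        (by rw [cls_add, hY, hY']; rfl)
        (by
          rw [show DC (V + V') = DC V + DC V' from map_add DCL V V', hV, hV']
          funext i
          exact (dC_add _ _ _).symm), ← map_add]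
    congr 1
    funext i
    exact eps_add _ _
  map_smul' a x := by
    funext t
    choose p hp1 hp2 hY hV using fun s => exists_YV x s
    choose b hb using fun s => wmk_surjective (ent a t s).snd
    have h0 : ∀ s, dC (ce1 (gR (N + 1))) (fstC x.1 s) = 0 := fun s => by
      rw [← fstC_dP (k' := 0) lev10 lin_ce1, show dP (k' := 0) lev10 _ lin_ce1 x.1 = 0 from x.2]
      rfl
    show th1fun (a • x) t = ∑ s, actV N (fstMat a t s) (th1fun x s)
    rw [th1fun_spec (a • x) t (V := ∑ s, psiC (fstMat a t s) (p s).2)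
      (sndC_smul a x.1 t (fun s => (p s).1) hY b hb) (by
        rw [show DC (∑ s, psiC (fstMat a t s) (p s).2) = ∑ s, DC (psiC (fstMat a t s) (p s).2)
          from map_sum DCL _ _]
        funext i
        rw [Finset.sum_apply, Finset.sum_apply, dC_sum]
        refine Finset.sum_congr rfl fun s _ => ?_
        rw [Pi.add_apply, dC_add, congrFun (dC_psiC _ _ _) i, congrFun (dC_bC _ _ _) i,
          DC_psiC, hV, h0]
        funext J q
        simp [bC])]
    have e : (fun i => eps (N + 1) ((∑ s, psiC (fstMat a t s) (p s).2) i))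
        = ∑ s, psiV (N + 1) (fstMat a t s) (fun i => eps (N + 1) ((p s).2 i)) := by
      funext i
      rw [Finset.sum_apply, Finset.sum_apply, eps_sum]
      exact Finset.sum_congr rfl fun s _ => congrFun (eps_psiC _ _) i
    rw [e, map_sum]
    exact Finset.sum_congr rfl fun s _ => by rw [curlV_psi, th1fun_spec x s (hY s) (hV s)]

lemma th1_surjective (N : ℕ) : Function.Surjective (th1 N) := by
  intro g
  let V : Fin 5 → Fin 2 → Fin 1 → Fin (N + 1) → UG := fun t i _ p =>
    algebraMap ℚ UG (((((N : ℚ) + 1)⁻¹) • iotaV N (g t) i) p)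
  have hV : ∀ t i, InC (lev t) (V t i) := fun t i =>
    inC_const (lev_nonneg t) fun _ p => (((((N : ℚ) + 1)⁻¹) • iotaV N (g t) i) p)
  have hVe : ∀ t, (fun i => eps (N + 1) (V t i)) = ((N : ℚ) + 1)⁻¹ • iotaV N (g t) := fun t => by
    funext i; simp only [V, eps_const]; rfl
  have key : ∀ t i, ∃ y, InC (lev t + 1 - 1) y ∧ dC (ce1 (gR (N + 1))) y = DC (V t) i := by
    intro t i
    refine exact0 (isRep_rhoN (N + 1)) (inC_DC (hV t) i) ?_
    show (fun i => eps (N + 1) (DC (V t) i)) i = 0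
    rw [eps_DC, hVe, DV_smul, DV_iotaV, smul_zero]
    rfl
  choose Y hY hY' using key
  obtain ⟨x, hx⟩ := exists_PP (c := 4) (M := N + 1) 1 (fun _ => 0) Y
    (fun _ _ _ => zero_mem _) (fun t i => by simpa [lev] using hY t i)
  have hY'' : ∀ t, DC (V t) = fun i => dC (ce1 (gR (N + 1))) (Y t i) := fun t =>
    funext fun i => (hY' t i).symm
  have hx0 : d1 (N + 1) x = 0 := by
    refine PP_ext (fun t => ?_) (fun t => ?_)
    · rw [d1, fstC_dP, (hx t).1]
      exact dC_zero _
    · rw [d1, sndC_dP lev10 lin_ce1 x t (hx t).2.symm, ← hY'' t]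
      funext I p
      exact cls_eq_zero.2 ⟨V t, rfl⟩ I p
  refine ⟨⟨x, hx0⟩, funext fun t => ?_⟩
  show th1fun ⟨x, hx0⟩ t = g t
  rw [th1fun_spec ⟨x, hx0⟩ t (hx t).2.symm (hY'' t), hVe, map_smul, curlV_iotaV, smul_smul,
    inv_mul_cancel₀ (by positivity), one_smul]

lemma range_d2_le (M : ℕ) : LinearMap.range (d2 M) ≤ LinearMap.ker (d1 M) := by
  rintro _ ⟨y, rfl⟩
  exact dP_comp lev21 lin_ce2 lev10 lin_ce1 (dC_comp2 (isRep_rhoN M)) y

lemma th1_eq_zero (x : LinearMap.ker (d1 (N + 1))) :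
    th1 N x = 0 ↔ x.1 ∈ LinearMap.range (d2 (N + 1)) := by
  constructor
  · intro h
    have key : ∀ t : Fin 5, ∃ (u : Fin 6 → Fin (N + 1) → UG)
        (Y : Fin 2 → Fin 6 → Fin (N + 1) → UG), InC (lev t - lev 2) u ∧
        (∀ i, InC (lev t + 1 - lev 2) (Y i)) ∧ dC (ce2 (gR (N + 1))) u = fstC x.1 t ∧
        cls (fun i => dC (ce2 (gR (N + 1))) (Y i)) = sndC x.1 t := by
      intro t
      have h1 : dC (ce1 (gR (N + 1))) (fstC x.1 t) = 0 := by
        rw [← fstC_dP (k' := 0) lev10 lin_ce1, show dP (k' := 0) lev10 _ lin_ce1 x.1 = 0 from x.2]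
        rfl
      obtain ⟨u, hu, hu'⟩ := exact1 (isRep_rhoN _) (fstC_inC x.1 t) h1
      obtain ⟨⟨Y, V⟩, hY, hV, hY', hV'⟩ := exists_YV x t
      have hc : curlV N (fun i => eps (N + 1) (V i)) = 0 := by
        rw [← th1fun_spec x t hY' hV']
        exact congrFun h t
      have hd : DV (fun i => eps (N + 1) (V i)) = 0 := by
        rw [← eps_DC, hV']
        exact funext fun i => epsC_comp (isRep_rhoN (N + 1)) (Y i)
      have hv : ∀ i, eps (N + 1) (V i) = 0 := by
        intro i
        have e := eq_DV_of_curlV hc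
        rw [DV_smul, hd, smul_zero] at e
        exact (congrFun e i).symm
      choose W hW hW' using fun i => exact0 (isRep_rhoN (N + 1)) (hV i) (hv i)
      choose Y₂ hY₂ hY₂' using fun i => exact1 (isRep_rhoN (N + 1))
        (z := lev t) (x := Y i - DC W i)
        (inC_sub (hY i) (fun I p => by simpa using inC_DC hW i I p))
        (by
          rw [dC_sub, congrFun (dC_DC _ W) i]
          simp only [hW']
          rw [hV', sub_self])
      refine ⟨u, Y₂, ?_, ?_, hu', ?_⟩
      · intro I p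
        rw [show lev t - lev 2 = lev t - lev 1 - 1 by simp [lev]; ring]
        exact hu I p
      · intro i I p
        rw [show lev t + 1 - lev 2 = lev t - 1 by simp [lev]; ring]
        exact hY₂ i I p
      · rw [← hY']
        exact (cls_eq.2 ⟨W, by funext i; rw [Pi.sub_apply, hY₂' i]; abel⟩).symm
    choose u Y hu hY hu' hY' using key
    obtain ⟨y, hy⟩ := exists_PP 2 u Y hu hY
    refine ⟨y, PP_ext (fun t => ?_) (fun t => ?_)⟩
    · rw [d2, fstC_dP, (hy t).1, hu']
    · rw [d2, sndC_dP lev21 lin_ce2 y t (hy t).2.symm, hY']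
  · rintro ⟨y, hy⟩
    funext t
    obtain ⟨Y, -, hY⟩ := exists_rep y t
    show th1fun x t = 0
    rw [th1fun_spec x t (Y := fun i => dC (ce2 (gR (N + 1))) (Y i)) (V := 0)
      (by rw [← hy, d2, sndC_dP lev21 lin_ce2 y t hY])
      (by
        rw [show DC (0 : Fin 2 → Fin 1 → Fin (N + 1) → UG) = 0 from map_zero DCL]
        exact funext fun i => (dC_comp2 (isRep_rhoN (N + 1)) (Y i)).symm)]
    rw [show (fun i => eps (N + 1) ((0 : Fin 2 → Fin 1 → Fin (N + 1) → UG) i)) = 0 from
      funext fun _ => eps_zero]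
    exact map_zero _

end maps

end

end Vale.Agent.P176
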