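import Vale.Agent.P176.Low

/-!
P176: projective dimensions of the modules `FMod N`.
-/

namespace Vale.Agent.P176

open CategoryTheory Matrix TrivSqZeroExt

noncomputable section

universe u

/-- Projective dimension less than `n`, for a module given by a type. -/
abbrev PdLT (A : Type u) [Ring A] (X : Type u) [AddCommGroup X] [Module A X] (n : ℕ) : Prop :=
  HasProjectiveDimensionLT (ModuleCat.of A X) n

section generic

variable {A : Type u} [Ring A] {X Y Z : Type u} [AddCommGroup X] [Module A X]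
  [AddCommGroup Y] [Module A Y] [AddCommGroup Z] [Module A Z]

lemma PdLT.mono {n m : ℕ} (h : PdLT A X n) (hnm : n ≤ m) : PdLT A X m :=
  haveI := h
  hasProjectiveDimensionLT_of_ge _ n m hnm

lemma pdLT_one_of_projective [Module.Projective A X] : PdLT A X 1 := by
  haveI : Projective (ModuleCat.of A X) := (IsProjective.iff_projective X).1 inferInstance
  infer_instance

lemma projective_of_pdLT_one (h : PdLT A X 1) : Module.Projective A X :=
  (IsProjective.iff_projective X).2 (projective_iff_hasProjectiveDimensionLT_one.2 h)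

/-- A short exact sequence of modules. -/
structure Ses (f : X →ₗ[A] Y) (g : Y →ₗ[A] Z) : Prop where
  inj : Function.Injective f
  exact : Function.Exact f g
  surj : Function.Surjective g

variable {f : X →ₗ[A] Y} {g : Y →ₗ[A] Z} (h : Ses f g)
include h

lemma Ses.shortExact :
    (ShortComplex.mk (ModuleCat.ofHom f) (ModuleCat.ofHom g)
      (ModuleCat.hom_ext h.exact.linearMap_comp_eq_zero)).ShortExact where
  exact := (ShortComplex.ShortExact.moduleCat_exact_iff_function_exact _).2 h.exact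
  mono_f := (ModuleCat.mono_iff_injective _).2 h.inj
  epi_g := (ModuleCat.epi_iff_surjective _).2 h.surj

lemma Ses.pd₁ {n : ℕ} (h₂ : PdLT A Y n) (h₃ : PdLT A Z (n + 1)) : PdLT A X n :=
  h.shortExact.hasProjectiveDimensionLT_X₁ n h₂ h₃

lemma Ses.pd₂ {n : ℕ} (h₁ : PdLT A X n) (h₃ : PdLT A Z n) : PdLT A Y n :=
  h.shortExact.hasProjectiveDimensionLT_X₂ n h₁ h₃

lemma Ses.pd₃ {n : ℕ} (h₁ : PdLT A X n) (h₂ : PdLT A Y (n + 1)) : PdLT A Z (n + 1) :=
  h.shortExact.hasProjectiveDimensionLT_X₃ n h₁ h₂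

end generic

section complex

variable {A : Type u} [Ring A] {F G P0 P1 P2 P3 P4 : Type u}
  [AddCommGroup F] [Module A F] [AddCommGroup G] [Module A G]
  [AddCommGroup P0] [Module A P0] [AddCommGroup P1] [Module A P1]
  [AddCommGroup P2] [Module A P2] [AddCommGroup P3] [Module A P3]
  [AddCommGroup P4] [Module A P4]

/-- A complex of length four over `F` whose homology at the two lowest places is `G`. -/
structure Datum (ε : P0 →ₗ[A] F) (d₁ : P1 →ₗ[A] P0) (d₂ : P2 →ₗ[A] P1) (d₃ : P3 →ₗ[A] P2)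
    (d₄ : P4 →ₗ[A] P3) (θ₀ : LinearMap.ker ε →ₗ[A] G) (θ₁ : LinearMap.ker d₁ →ₗ[A] G) :
    Prop where
  eps_surj : Function.Surjective ε
  le₁ : LinearMap.range d₁ ≤ LinearMap.ker ε
  le₂ : LinearMap.range d₂ ≤ LinearMap.ker d₁
  th0_surj : Function.Surjective θ₀
  th0_ker : ∀ x, θ₀ x = 0 ↔ x.1 ∈ LinearMap.range d₁
  th1_surj : Function.Surjective θ₁
  th1_ker : ∀ x, θ₁ x = 0 ↔ x.1 ∈ LinearMap.range d₂
  exact₂ : LinearMap.ker d₂ = LinearMap.range d₃
  exact₃ : LinearMap.ker d₃ = LinearMap.range d₄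
  inj₄ : LinearMap.ker d₄ = ⊥

variable {ε : P0 →ₗ[A] F} {d₁ : P1 →ₗ[A] P0} {d₂ : P2 →ₗ[A] P1} {d₃ : P3 →ₗ[A] P2}
  {d₄ : P4 →ₗ[A] P3} {θ₀ : LinearMap.ker ε →ₗ[A] G} {θ₁ : LinearMap.ker d₁ →ₗ[A] G}
  (D : Datum ε d₁ d₂ d₃ d₄ θ₀ θ₁)

include D

lemma Datum.ses1 : Ses (LinearMap.ker ε).subtype ε :=
  ⟨Subtype.val_injective, LinearMap.exact_subtype_ker_map _, D.eps_surj⟩

lemma Datum.ses2 : Ses (LinearMap.ker θ₀).subtype θ₀ :=
  ⟨Subtype.val_injective, LinearMap.exact_subtype_ker_map _, D.th0_surj⟩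

lemma Datum.ses3 : ∃ g : P1 →ₗ[A] LinearMap.ker θ₀, Ses (LinearMap.ker d₁).subtype g := by
  refine ⟨LinearMap.codRestrict (LinearMap.ker θ₀)
    (LinearMap.codRestrict (LinearMap.ker ε) d₁ fun x => D.le₁ ⟨x, rfl⟩)
    fun x => LinearMap.mem_ker.2 ((D.th0_ker _).2 ⟨x, rfl⟩), Subtype.val_injective, ?_, ?_⟩
  · rw [LinearMap.exact_iff, LinearMap.ker_codRestrict, LinearMap.ker_codRestrict,
      Submodule.range_subtype]
  · intro x
    obtain ⟨y, hy⟩ := (D.th0_ker x.1).1 (LinearMap.mem_ker.1 x.2)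
    exact ⟨y, Subtype.ext (Subtype.ext hy)⟩

lemma Datum.ses4 : Ses (LinearMap.ker θ₁).subtype θ₁ :=
  ⟨Subtype.val_injective, LinearMap.exact_subtype_ker_map _, D.th1_surj⟩

lemma Datum.ses5 : ∃ g : P2 →ₗ[A] LinearMap.ker θ₁, Ses (LinearMap.ker d₂).subtype g := by
  refine ⟨LinearMap.codRestrict (LinearMap.ker θ₁)
    (LinearMap.codRestrict (LinearMap.ker d₁) d₂ fun x => D.le₂ ⟨x, rfl⟩)
    fun x => LinearMap.mem_ker.2 ((D.th1_ker _).2 ⟨x, rfl⟩), Subtype.val_injective, ?_, ?_⟩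
  · rw [LinearMap.exact_iff, LinearMap.ker_codRestrict, LinearMap.ker_codRestrict,
      Submodule.range_subtype]
  · intro x
    obtain ⟨y, hy⟩ := (D.th1_ker x.1).1 (LinearMap.mem_ker.1 x.2)
    exact ⟨y, Subtype.ext (Subtype.ext hy)⟩

lemma Datum.ses7 : ∃ g : P3 →ₗ[A] LinearMap.ker d₂, Ses d₄ g := by
  refine ⟨LinearMap.codRestrict (LinearMap.ker d₂) d₃ fun x => by rw [D.exact₂]; exact ⟨x, rfl⟩,
    LinearMap.ker_eq_bot.1 D.inj₄, ?_, ?_⟩
  · rw [LinearMap.exact_iff, LinearMap.ker_codRestrict, D.exact₃]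
  · intro x
    have hx : x.1 ∈ LinearMap.range d₃ := D.exact₂ ▸ x.2
    obtain ⟨y, hy⟩ := hx
    exact ⟨y, Subtype.ext hy⟩

variable [Module.Projective A P0] [Module.Projective A P1] [Module.Projective A P2]
  [Module.Projective A P3] [Module.Projective A P4]

lemma Datum.pd_kerth1 : PdLT A (LinearMap.ker θ₁) 3 := by
  obtain ⟨_, s5⟩ := D.ses5
  obtain ⟨_, s7⟩ := D.ses7
  exact s5.pd₃ (s7.pd₃ pdLT_one_of_projective (pdLT_one_of_projective.mono (by omega)))
    (pdLT_one_of_projective.mono (by omega))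

lemma Datum.finite_step {n : ℕ} (hn : 3 ≤ n) (h : PdLT A G n) : PdLT A F (n + 2) := by
  obtain ⟨_, s3⟩ := D.ses3
  have h1 := D.ses4.pd₂ (D.pd_kerth1.mono hn) h
  have h2 := s3.pd₃ h1 (pdLT_one_of_projective.mono (by omega))
  have h3 := D.ses2.pd₂ h2 (h.mono (by omega))
  exact D.ses1.pd₃ h3 (pdLT_one_of_projective.mono (by omega))

lemma Datum.descent {m r : ℕ} (hm : 3 ≤ m) (hM : PdLT A F (m + 3))
    (hr : m + 2 ≤ r) (h : PdLT A G (r + 1)) : PdLT A G (r - 1) := by
  obtain ⟨_, s3⟩ := D.ses3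
  have h1 := D.ses1.pd₁ (n := m + 2) (pdLT_one_of_projective.mono (by omega)) hM
  have h2 := D.ses2.pd₁ (n := r) (h1.mono hr) h
  have h3 := s3.pd₁ (n := r - 1) (pdLT_one_of_projective.mono (by omega)) (h2.mono (by omega))
  obtain ⟨j, rfl⟩ : ∃ j, r = j + 2 := ⟨r - 2, by omega⟩
  exact D.ses4.pd₃ (n := j) (D.pd_kerth1.mono (by omega)) h3

lemma Datum.step {m : ℕ} (hm : 3 ≤ m) (hfin : ∃ n, PdLT A G n) (h : ¬PdLT A G (m + 1)) :
    ¬PdLT A F (m + 3) := by
  intro hM
  have key : ∀ d, PdLT A G (m + 1 + d) → PdLT A G (m + 1) := by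
    intro d
    induction d with
    | zero => exact id
    | succ d ih =>
      intro hd
      refine ih ?_
      exact (D.descent (r := m + 2 + d) hm hM (by omega) (hd.mono (by omega))).mono (by omega)
  obtain ⟨n, hn⟩ := hfin
  exact h (key n (hn.mono (by omega)))

/-- If `G` has no homology to offer and `F` has projective dimension at most three, then the
inclusion at the top of the complex splits. -/
lemma Datum.retraction (hG : ∀ n, PdLT A G n) (h : PdLT A F 4) :
    ∃ r : P3 →ₗ[A] P4, ∀ x, r (d₄ x) = x := by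
  obtain ⟨_, s3⟩ := D.ses3
  obtain ⟨_, s5⟩ := D.ses5
  obtain ⟨g, s7⟩ := D.ses7
  have h1 := D.ses1.pd₁ (n := 3) (pdLT_one_of_projective.mono (by omega)) h
  have h2 := D.ses2.pd₁ (n := 3) h1 (hG _)
  have h3 := s3.pd₁ (n := 2) (pdLT_one_of_projective.mono (by omega)) h2
  have h4 := D.ses4.pd₁ (n := 2) h3 (hG _)
  haveI := projective_of_pdLT_one (s5.pd₁ (n := 1) pdLT_one_of_projective h4)
  obtain ⟨s, hs⟩ := Module.projective_lifting_property g LinearMap.id s7.surj
  let e := LinearEquiv.ofInjective d₄ s7.inj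
  let q : P3 →ₗ[A] P3 := LinearMap.id - s.comp g
  have hmem : ∀ y, q y ∈ LinearMap.range d₄ := by
    intro y
    rw [← LinearMap.exact_iff.1 s7.exact]
    show g (y - s (g y)) = 0
    rw [map_sub, show g (s (g y)) = g y from LinearMap.congr_fun hs _, sub_self]
  refine ⟨e.symm.toLinearMap.comp (LinearMap.codRestrict _ q hmem), fun x => e.injective ?_⟩
  show e (e.symm _) = e x
  rw [LinearEquiv.apply_symm_apply]
  refine Subtype.ext ?_
  show d₄ x - s (g (d₄ x)) = d₄ x
  rw [s7.exact.apply_apply_eq_zero, map_zero, sub_zero]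

end complex

section steps

lemma datum (N : ℕ) : Datum (A := AR) (epsHat (N + 1)) (d1 (N + 1)) (d2 (N + 1)) (d3 (N + 1))
    (d4 (N + 1)) (th0 N) (th1 N) :=
  ⟨epsHat_surjective _, range_d1_le _, range_d2_le _, th0_surjective N, th0_eq_zero,
    th1_surjective N, th1_eq_zero, ker_d2, ker_d3, ker_d4⟩

instance : Subsingleton (FMod 0) := inferInstanceAs (Subsingleton (Fin 5 → Fin 0 → ℚ))

lemma pd_FMod_zero (n : ℕ) : PdLT AR (FMod 0) n :=
  haveI : HasProjectiveDimensionLT (ModuleCat.of AR (FMod 0)) 0 :=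
    (ModuleCat.isZero_of_subsingleton _).hasProjectiveDimensionLT_zero
  hasProjectiveDimensionLT_of_ge _ 0 n (Nat.zero_le n)

/-- A map between the top terms of the complex kills the top entries. -/
lemma fst_top_eq_zero {c c' M : ℕ} (r : PP 3 c M →ₗ[AR] PP 4 c' M) (y : PP 3 c M) :
    fstC (r y) 4 = 0 := by
  classical
  let g : Fin c → Fin M → PP 3 c M := fun I p => Pi.single I (Pi.single p (colOf 3 1))
  have hg : ∀ I p (a : AR),
      a • g I p = (Pi.single I (Pi.single p (colOf 3 a)) : PP 3 c M) := by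
    intro I p a
    show a • (Pi.single I (Pi.single p (colOf 3 1)) : PP 3 c M) = _
    rw [← Pi.single_smul', ← Pi.single_smul', ← map_smul, smul_eq_mul, mul_one]
  have hy : y = ∑ I, ∑ p, colIn 3 (y I p) • g I p := by
    simp only [hg]
    have e : ∀ f : Col 3, colOf 3 (colIn 3 f) = f := LinearMap.congr_fun (colOf_colIn 3)
    simp only [e]
    conv_lhs => rw [← Finset.univ_sum_single y]
    refine Finset.sum_congr rfl fun I _ => ?_
    funext J
    rw [Finset.sum_apply]
    rcases eq_or_ne J I with rfl | hJ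
    · simp only [Pi.single_eq_same]
      exact (Finset.univ_sum_single (y J)).symm
    · simp [Pi.single_eq_of_ne hJ]
  have key : ∀ (a : AR) (z : PP 4 c' M), (∀ s, s ≠ 3 → fstMat a 4 s = 0) →
      fstC (a • z) 4 = 0 := by
    intro a z ha
    rw [fstC_smul]
    refine Finset.sum_eq_zero fun s _ => ?_
    funext I p
    rcases eq_or_ne s 3 with rfl | hs
    · have h3 := fstC_inC z 3 I p
      simp [lev, FI] at h3
      simp [lmC, h3]
    · simp [lmC, ha s hs]
  let φ : PP 4 c' M →+ (Fin c' → Fin M → UG) :=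
    AddMonoidHom.mk' (fun z => fstC z 4) (fun u v => fstC_add u v 4)
  show φ (r y) = 0
  rw [hy, map_sum, map_sum]
  refine Finset.sum_eq_zero fun I _ => ?_
  rw [map_sum, map_sum]
  refine Finset.sum_eq_zero fun p _ => ?_
  rw [map_smul]
  refine key _ _ fun s hs => ?_
  show ((if s = 3 then (y I p).1 4 else 0 : TT)).fst = 0
  simp [hs]

lemma not_pd_one : ¬PdLT AR (FMod 1) 4 := by
  intro h
  obtain ⟨r, hr⟩ := (datum 0).retraction pd_FMod_zero h
  obtain ⟨x, hx⟩ := exists_PP (c := 1) (M := 1) 4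
    (fun t _ p => if t = 4 then algebraMap ℚ UG (if p = 0 then 1 else 0) else 0) (fun _ _ => 0)
    (fun t I p => by
      show (if t = 4 then algebraMap ℚ UG (if p = 0 then 1 else 0) else 0) ∈ FI _
      split_ifs with h
      · subst h; simpa using one_mem_FI le_rfl
      · subst h; simp
      · exact zero_mem _)
    (fun _ _ _ _ => zero_mem _)
  have h0 := fst_top_eq_zero r (d4 (0 + 1) x)
  rw [hr, (hx 4).1] at h0
  have h1 : eps 1 (fun _ p => algebraMap ℚ UG (if p = (0 : Fin 1) then 1 else 0)) = 0 := by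
    simp only [if_true] at h0
    rw [show (fun (_ : Fin 1) p => algebraMap ℚ UG (if p = (0 : Fin 1) then 1 else 0)) = 0
      from h0]
    exact eps_zero
  rw [eps_const] at h1
  simpa using congrFun h1 0

lemma pd_finite (n : ℕ) : ∃ b, 3 ≤ b ∧ PdLT AR (FMod n) b := by
  induction n with
  | zero => exact ⟨3, le_rfl, pd_FMod_zero 3⟩
  | succ n ih =>
    obtain ⟨b, hb, h⟩ := ih
    exact ⟨b + 2, by omega, (datum n).finite_step hb h⟩

lemma not_pd (n : ℕ) : ¬PdLT AR (FMod (n + 1)) (2 * n + 4) := by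
  induction n with
  | zero => exact not_pd_one
  | succ n ih =>
    obtain ⟨b, -, hb⟩ := pd_finite (n + 1)
    exact (datum (n + 1)).step (m := 2 * n + 3) (by omega) ⟨b, hb⟩ ih

end steps

end

end Vale.Agent.P176
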