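import Vale.Agent.P176.Defs

/-!
P176: the shifted action on pairs, and the bimodule `Wq` of pairs modulo the image of `Dm`.
-/

namespace Vale.Agent.P176

open Matrix MulOpposite

noncomputable section

lemma isRep_psiGen : IsRep psiGen := by
  intro a b c d
  have h := gE_comm a b c d
  ext i j
  fin_cases a <;> fin_cases b <;> fin_cases c <;> fin_cases d <;> fin_cases i <;> fin_cases j <;>
    simp [psiGen, rho2, Matrix.mul_apply, Fin.sum_univ_two] at h ⊢ <;>
    (first | exact h | linear_combination (norm := noncomm_ring) h)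

/-- The shifted action on pairs. -/
def psi : UG →ₐ[ℚ] Matrix (Fin 2) (Fin 2) UG := liftRep psiGen isRep_psiGen

lemma psiGen_entry_mem (a b i j : Fin 2) : psiGen a b i j ∈ F1 := by
  have h0 : (0 : UG) ∈ F1 := zero_mem _
  have h1 : (1 : UG) ∈ F1 := one_mem_F1
  have hg := gE_mem_F1 a b
  fin_cases a <;> fin_cases b <;> fin_cases i <;> fin_cases j <;>
    simp [psiGen, rho2] at hg ⊢ <;>
    first
    | exact hg
    | exact h1
    | (refine add_mem ?_ ?_ <;> first | exact hg | exact neg_mem h1)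
    | exact sub_mem hg h1

lemma psi_entry_mem : ∀ m x, x ∈ Fn m → ∀ i j, psi x i j ∈ Fn m := by
  refine Fn_induction (p := fun m x => ∀ i j, psi x i j ∈ Fn m) ?_ ?_ ?_ ?_ ?_ ?_
  · intro r i j
    rw [map_smul, map_one, Matrix.smul_apply]
    refine Submodule.smul_mem _ r ?_
    by_cases h : i = j
    · subst h; simpa using one_mem_Fn_zero
    · simp [h]
  · intro m x y hx hy i j; rw [map_add]; exact add_mem (hx i j) (hy i j)
  · intro m i j; simp
  · intro m r x hx i j; rw [map_smul]; exact Submodule.smul_mem _ r (hx i j)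
  · intro m x _ hx i j; exact Fn_le_succ m (hx i j)
  · intro m a b x _ hx i j
    rw [map_mul, psi, liftRep_gE, Matrix.mul_apply, Fn_succ']
    exact sum_mem fun l _ => Submodule.mul_mem_mul (psiGen_entry_mem a b i l) (hx l j)

lemma psi_mulVec_mem {a b : ℤ} {u : UG} {v : Fin 2 → UG} (hu : u ∈ FI a)
    (hv : ∀ i, v i ∈ FI b) (i : Fin 2) : (psi u *ᵥ v) i ∈ FI (a + b) := by
  simp only [Matrix.mulVec, dotProduct]
  refine sum_mem fun l _ => FI_mul_mem ?_ (hv l)
  revert hu
  unfold FI
  split_ifs with h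
  · exact fun hu => psi_entry_mem _ _ hu i l
  · intro hu
    rw [Submodule.mem_bot] at hu
    simp [hu]

lemma Dm_psiGen (a b : Fin 2) (v : Fin 2 → UG) :
    Dm (psiGen a b *ᵥ v) = psiGen a b *ᵥ Dm v := by
  funext i
  have h0 := gE_comm a b 0 i
  have h1 := gE_comm a b 1 i
  fin_cases a <;> fin_cases b <;> fin_cases i <;>
    simp [Dm, psiGen, rho2, Matrix.mulVec, dotProduct, Fin.sum_univ_two] at h0 h1 ⊢ <;>
    linear_combination (norm := noncomm_ring) -(h0 * v 0) - h1 * v 1

lemma Dm_psi (u : UG) : ∀ v : Fin 2 → UG, Dm (psi u *ᵥ v) = psi u *ᵥ Dm v := by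
  induction u using gE_induction with
  | hc r =>
    intro v
    funext i
    simp [Dm, Algebra.algebraMap_eq_smul_one, Matrix.smul_mulVec, ← Finset.smul_sum]
  | hg a b => intro v; rw [psi, liftRep_gE]; exact Dm_psiGen a b v
  | hadd x y hx hy =>
    intro v
    rw [map_add, add_mulVec, add_mulVec, ← hx, ← hy]
    funext i
    simp [Dm, mul_add, Finset.sum_add_distrib]
    abel
  | hmul x y hx hy => intro v; rw [map_mul, ← mulVec_mulVec, ← mulVec_mulVec, hx, hy]

/-- `Dm` as a linear map. -/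
def DmL : (Fin 2 → UG) →ₗ[ℚ] (Fin 2 → UG) where
  toFun := Dm
  map_add' x y := by funext i; simp [Dm, mul_add, Finset.sum_add_distrib]; abel
  map_smul' r x := by funext i; simp [Dm, ← Finset.smul_sum]

@[simp] lemma DmL_apply (v : Fin 2 → UG) : DmL v = Dm v := rfl

lemma Dm_mul_right (v : Fin 2 → UG) (r : UG) :
    Dm (fun i => v i * r) = fun i => Dm v i * r := by
  funext i
  simp only [Dm, add_mul, Finset.sum_mul, mul_assoc]

lemma Dm_mem {z : ℤ} {v : Fin 2 → UG} (hv : ∀ i, v i ∈ FI z) (i : Fin 2) :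
    Dm v i ∈ FI (z + 1) := by
  refine add_mem (sum_mem fun j _ => ?_) (FI_mono (by omega) (hv i))
  rw [add_comm z 1]
  exact FI_mul_mem (gE_mem_FI le_rfl j i) (hv j)

/-- Left multiplication on pairs. -/
def lL (u : UG) : (Fin 2 → UG) →ₗ[ℚ] (Fin 2 → UG) where
  toFun v := psi u *ᵥ v
  map_add' x y := Matrix.mulVec_add _ x y
  map_smul' r x := Matrix.mulVec_smul _ r x

/-- Right multiplication on pairs. -/
def lR (r : UG) : (Fin 2 → UG) →ₗ[ℚ] (Fin 2 → UG) where
  toFun v := fun i => v i * r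
  map_add' x y := by funext i; simp [add_mul]
  map_smul' c x := by funext i; simp [smul_mul_assoc]

/-- Pairs modulo the image of `Dm`. -/
def Wq : Type := (Fin 2 → UG) ⧸ LinearMap.range DmL

instance : AddCommGroup Wq :=
  inferInstanceAs (AddCommGroup ((Fin 2 → UG) ⧸ LinearMap.range DmL))

instance : Module ℚ Wq :=
  inferInstanceAs (Module ℚ ((Fin 2 → UG) ⧸ LinearMap.range DmL))

/-- The class of a pair. -/
def wmk : (Fin 2 → UG) →ₗ[ℚ] Wq := Submodule.mkQ _

lemma wmk_surjective : Function.Surjective wmk := Submodule.mkQ_surjective _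

lemma wmk_eq_zero {v : Fin 2 → UG} : wmk v = 0 ↔ ∃ y, Dm y = v := by
  show Submodule.Quotient.mk v = (0 : _ ⧸ LinearMap.range DmL) ↔ _
  rw [Submodule.Quotient.mk_eq_zero]
  rfl

lemma lL_range (u : UG) :
    LinearMap.range DmL ≤ (LinearMap.range DmL).comap (lL u) := by
  rintro _ ⟨y, rfl⟩
  exact ⟨psi u *ᵥ y, Dm_psi u y⟩

lemma lR_range (r : UG) :
    LinearMap.range DmL ≤ (LinearMap.range DmL).comap (lR r) := by
  rintro _ ⟨y, rfl⟩
  exact ⟨fun i => y i * r, Dm_mul_right y r⟩

instance : SMul UG Wq := ⟨fun u => Submodule.mapQ _ _ (lL u) (lL_range u)⟩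

instance : SMul UGᵐᵒᵖ Wq := ⟨fun r => Submodule.mapQ _ _ (lR r.unop) (lR_range r.unop)⟩

lemma smul_wmk (u : UG) (v : Fin 2 → UG) : u • wmk v = wmk (psi u *ᵥ v) := rfl

lemma op_smul_wmk (r : UG) (v : Fin 2 → UG) : op r • wmk v = wmk (fun i => v i * r) := rfl

instance : Module UG Wq where
  one_smul w := by
    obtain ⟨v, rfl⟩ := wmk_surjective w; rw [smul_wmk, map_one, one_mulVec]
  mul_smul x y w := by
    obtain ⟨v, rfl⟩ := wmk_surjective w
    rw [smul_wmk, smul_wmk, smul_wmk, map_mul, mulVec_mulVec]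
  smul_zero x := by rw [← map_zero wmk, smul_wmk, mulVec_zero]
  smul_add x w w' := by
    obtain ⟨v, rfl⟩ := wmk_surjective w
    obtain ⟨v', rfl⟩ := wmk_surjective w'
    rw [← map_add, smul_wmk, smul_wmk, smul_wmk, mulVec_add, map_add]
  add_smul x y w := by
    obtain ⟨v, rfl⟩ := wmk_surjective w
    rw [smul_wmk, smul_wmk, smul_wmk, map_add, add_mulVec, map_add]
  zero_smul w := by
    obtain ⟨v, rfl⟩ := wmk_surjective w; rw [smul_wmk, map_zero, zero_mulVec, map_zero]

instance : Module UGᵐᵒᵖ Wq where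
  one_smul w := by
    obtain ⟨v, rfl⟩ := wmk_surjective w
    rw [← op_one, op_smul_wmk]; simp
  mul_smul x y w := by
    obtain ⟨v, rfl⟩ := wmk_surjective w
    induction x using MulOpposite.rec' with
    | h x =>
      induction y using MulOpposite.rec' with
      | h y => rw [← op_mul, op_smul_wmk, op_smul_wmk, op_smul_wmk]; simp [mul_assoc]
  smul_zero x := by
    induction x using MulOpposite.rec' with
    | h x => rw [← map_zero wmk, op_smul_wmk]; congr 1; funext i; simp
  smul_add x w w' := by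
    induction x using MulOpposite.rec' with
    | h x =>
      obtain ⟨v, rfl⟩ := wmk_surjective w
      obtain ⟨v', rfl⟩ := wmk_surjective w'
      rw [← map_add, op_smul_wmk, op_smul_wmk, op_smul_wmk, ← map_add]
      congr 1; funext i; simp [add_mul]
  add_smul x y w := by
    induction x using MulOpposite.rec' with
    | h x =>
      induction y using MulOpposite.rec' with
      | h y =>
        obtain ⟨v, rfl⟩ := wmk_surjective w
        rw [← op_add, op_smul_wmk, op_smul_wmk, op_smul_wmk, ← map_add]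
        congr 1; funext i; simp [mul_add]
  zero_smul w := by
    obtain ⟨v, rfl⟩ := wmk_surjective w
    rw [← op_zero, op_smul_wmk, ← map_zero wmk]
    congr 1; funext i; simp

instance : SMulCommClass UG UGᵐᵒᵖ Wq where
  smul_comm u x w := by
    induction x using MulOpposite.rec' with
    | h x =>
      obtain ⟨v, rfl⟩ := wmk_surjective w
      rw [op_smul_wmk, smul_wmk, smul_wmk, op_smul_wmk]
      congr 1; funext i
      simp [Matrix.mulVec, dotProduct, Finset.sum_mul, mul_assoc, add_mul]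

instance : IsScalarTower ℚ UG Wq where
  smul_assoc r u w := by
    obtain ⟨v, rfl⟩ := wmk_surjective w
    rw [smul_wmk, smul_wmk, map_smul, smul_mulVec, map_smul]

instance : IsScalarTower ℚ UGᵐᵒᵖ Wq where
  smul_assoc r x w := by
    induction x using MulOpposite.rec' with
    | h x =>
      obtain ⟨v, rfl⟩ := wmk_surjective w
      rw [← op_smul, op_smul_wmk, op_smul_wmk, ← map_smul]
      congr 1; funext i; simp

/-- Classes of pairs with entries in a piece of the filtration. -/
def ZI (z : ℤ) : Submodule ℚ Wq := (Submodule.pi Set.univ fun _ : Fin 2 => FI z).map wmk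

lemma mem_ZI {z : ℤ} {w : Wq} : w ∈ ZI z ↔ ∃ v, (∀ i, v i ∈ FI z) ∧ wmk v = w := by
  simp [ZI, Submodule.mem_pi]

lemma ZI_mono {z w : ℤ} (h : z ≤ w) : ZI z ≤ ZI w := fun x hx => by
  obtain ⟨v, hv, rfl⟩ := mem_ZI.1 hx
  exact mem_ZI.2 ⟨v, fun i => FI_mono h (hv i), rfl⟩

lemma smul_mem_ZI {a b : ℤ} {u : UG} {w : Wq} (hu : u ∈ FI a) (hw : w ∈ ZI b) :
    u • w ∈ ZI (a + b) := by
  obtain ⟨v, hv, rfl⟩ := mem_ZI.1 hw
  exact mem_ZI.2 ⟨_, fun i => psi_mulVec_mem hu hv i, (smul_wmk u v).symm⟩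

lemma op_smul_mem_ZI {a b : ℤ} {r : UG} {w : Wq} (hw : w ∈ ZI a) (hr : r ∈ FI b) :
    op r • w ∈ ZI (a + b) := by
  obtain ⟨v, hv, rfl⟩ := mem_ZI.1 hw
  exact mem_ZI.2 ⟨_, fun i => FI_mul_mem (hv i) hr, (op_smul_wmk r v).symm⟩

lemma ZI_fg (z : ℤ) : (ZI z).FG := by
  refine Submodule.FG.map _ ?_
  exact Submodule.fg_pi fun _ => FI_fg z

end

end Vale.Agent.P176
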