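import Vale.Agent.P176.Psi

/-!
P176: the representations on binary forms of degree `N - 1`, and the two maps between
`S^N ⊗ ℚ²` and `S^(N-1)` splitting `Dm`.
-/

namespace Vale.Agent.P176

noncomputable section

variable {N : ℕ}

/-- Extension by zero. -/
def extz (f : Fin N → ℚ) (q : ℕ) : ℚ := if h : q < N then f ⟨q, h⟩ else 0

/-- The previous coefficient. -/
def prv (F : ℕ → ℚ) (q : ℕ) : ℚ := if q = 0 then 0 else F (q - 1)

lemma extz_apply (f : Fin N → ℚ) (q : Fin N) : extz f q = f q := by simp [extz]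

lemma extz_ge (f : Fin N → ℚ) {q : ℕ} (h : N ≤ q) : extz f q = 0 := by simp [extz, not_lt.2 h]

@[simp] lemma extz_add (f g : Fin N → ℚ) (q : ℕ) : extz (f + g) q = extz f q + extz g q := by
  simp only [extz]; split_ifs <;> simp

@[simp] lemma extz_smul (r : ℚ) (f : Fin N → ℚ) (q : ℕ) : extz (r • f) q = r * extz f q := by
  simp only [extz]; split_ifs <;> simp

@[simp] lemma extz_neg (f : Fin N → ℚ) (q : ℕ) : extz (-f) q = -extz f q := by
  simp only [extz]; split_ifs <;> simp

lemma extz_restrict (F : ℕ → ℚ) (hF : ∀ q, N ≤ q → F q = 0) (q : ℕ) :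
    extz (fun p : Fin N => F p) q = F q := by
  simp only [extz]
  split_ifs with h
  · rfl
  · exact (hF q (not_lt.1 h)).symm

/-- The action of a generator on coefficient sequences. -/
def opF (N : ℕ) (a b : Fin 2) (F : ℕ → ℚ) (q : ℕ) : ℚ :=
  if a = 0 ∧ b = 0 then ((N : ℚ) - 1 - q) * F q
  else if a = 1 ∧ b = 1 then (q : ℚ) * F q
  else if a = 0 then ((q : ℚ) + 1) * F (q + 1)
  else ((N : ℚ) - q) * prv F q

lemma opF_supp {F : ℕ → ℚ} (hF : ∀ q, N ≤ q → F q = 0) (a b : Fin 2) :
    ∀ q, N ≤ q → opF N a b F q = 0 := by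
  intro q hq
  fin_cases a <;> fin_cases b <;> simp [opF, hF q hq, hF (q + 1) (by omega)]
  rcases eq_or_lt_of_le hq with rfl | h
  · simp
  · right
    simp [prv, hF (q - 1) (by omega)]

/-- The action of a generator on forms. -/
def opV (N : ℕ) (a b : Fin 2) : Module.End ℚ (Fin N → ℚ) where
  toFun f q := opF N a b (extz f) q
  map_add' f g := by
    funext q
    fin_cases a <;> fin_cases b <;> simp [opF, prv] <;> (try split_ifs) <;> simp [mul_add]
  map_smul' r f := by
    funext q
    fin_cases a <;> fin_cases b <;> simp [opF, prv] <;> (try split_ifs) <;> ring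

lemma opV_apply (a b : Fin 2) (f : Fin N → ℚ) (q : Fin N) :
    opV N a b f q = opF N a b (extz f) q := rfl

lemma extz_opV (a b : Fin 2) (f : Fin N → ℚ) :
    extz (opV N a b f) = opF N a b (extz f) :=
  funext (extz_restrict _ (opF_supp (fun _ => extz_ge f) a b))

lemma opF_comm (a b c d : Fin 2) (F : ℕ → ℚ) (q : ℕ) :
    opF N a b (opF N c d F) q - opF N c d (opF N a b F) q
      = (if b = c then opF N a d F q else 0) - (if a = d then opF N c b F q else 0) := by
  rcases q with _ | q <;>
    fin_cases a <;> fin_cases b <;> fin_cases c <;> fin_cases d <;>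
      simp [opF, prv] <;> ring

lemma isRep_opV (N : ℕ) : IsRep (opV N) := by
  intro a b c d
  refine LinearMap.ext fun f => funext fun q => ?_
  have h := opF_comm (N := N) a b c d (extz f) q
  simp only [LinearMap.sub_apply, Module.End.mul_apply, Pi.sub_apply]
  rw [show (opV N a b) ((opV N c d) f) q = opF N a b (extz (opV N c d f)) q from rfl,
    show (opV N c d) ((opV N a b) f) q = opF N c d (extz (opV N a b f)) q from rfl,
    extz_opV, extz_opV, h]
  split_ifs <;> simp [opV_apply]

/-- The representation matrices. -/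
def rhoN (N : ℕ) (a b : Fin 2) : Matrix (Fin N) (Fin N) ℚ :=
  LinearMap.toMatrixAlgEquiv' (opV N a b)

lemma isRep_rhoN (N : ℕ) : IsRep (rhoN N) := by
  intro a b c d
  simp only [rhoN, ← map_mul, ← map_sub, isRep_opV N a b c d]
  split_ifs <;> simp

/-- The action of the enveloping algebra on forms. -/
def rhoHat (N : ℕ) : UG →ₐ[ℚ] Matrix (Fin N) (Fin N) ℚ := liftRep (rhoN N) (isRep_rhoN N)

/-- The action on a vector. -/
def actV (N : ℕ) (u : UG) (f : Fin N → ℚ) : Fin N → ℚ := (rhoHat N u).mulVec f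

lemma actV_gE (a b : Fin 2) (f : Fin N → ℚ) : actV N (gE a b) f = opV N a b f := by
  simp [actV, rhoHat, rhoN, LinearMap.toMatrixAlgEquiv']

lemma actV_mul (u v : UG) (f : Fin N → ℚ) : actV N (u * v) f = actV N u (actV N v f) := by
  simp [actV, Matrix.mulVec_mulVec]

lemma actV_add (u v : UG) (f : Fin N → ℚ) : actV N (u + v) f = actV N u f + actV N v f := by
  simp [actV, Matrix.add_mulVec]

lemma actV_add_vec (u : UG) (f g : Fin N → ℚ) : actV N u (f + g) = actV N u f + actV N u g := by
  simp [actV, Matrix.mulVec_add]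

lemma actV_one (f : Fin N → ℚ) : actV N 1 f = f := by simp [actV]

/-- The operator induced by `Dm` on pairs of forms. -/
def DV (u : Fin 2 → Fin N → ℚ) : Fin 2 → Fin N → ℚ :=
  fun i => (∑ j, opV N j i (u j)) + u i

/-- The kernel inclusion. -/
def iotaV (N : ℕ) : (Fin N → ℚ) →ₗ[ℚ] (Fin 2 → Fin (N + 1) → ℚ) where
  toFun f i q := if i = 0 then prv (extz f) q else -extz f q
  map_add' f g := by
    funext i q; fin_cases i <;> simp [prv] <;> (try split_ifs) <;> (try simp) <;> (try ring)
  map_smul' r f := by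
    funext i q; fin_cases i <;> simp [prv]

/-- The cokernel projection. -/
def curlV (N : ℕ) : (Fin 2 → Fin (N + 1) → ℚ) →ₗ[ℚ] (Fin N → ℚ) where
  toFun u q := ((q : ℕ) + 1 : ℚ) * extz (u 0) (q + 1) - ((N : ℚ) - (q : ℕ)) * extz (u 1) q
  map_add' u v := by funext q; simp; ring
  map_smul' r u := by funext q; simp; ring

lemma extz_iotaV (f : Fin N → ℚ) (i : Fin 2) (q : ℕ) :
    extz (iotaV N f i) q = if i = 0 then prv (extz f) q else -extz f q := by
  refine extz_restrict (fun r => if i = 0 then prv (extz f) r else -extz f r) (fun r hr => ?_) q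
  fin_cases i
  · simp [prv, extz_ge f (show N ≤ r - 1 by omega)]
  · simp [extz_ge f (show N ≤ r by omega)]

lemma extz_curlV (u : Fin 2 → Fin (N + 1) → ℚ) (q : ℕ) :
    extz (curlV N u) q
      = ((q : ℚ) + 1) * extz (u 0) (q + 1) - ((N : ℚ) - q) * extz (u 1) q := by
  refine extz_restrict
    (fun r => ((r : ℚ) + 1) * extz (u 0) (r + 1) - ((N : ℚ) - r) * extz (u 1) r) (fun r hr => ?_) q
  rcases eq_or_lt_of_le hr with rfl | h
  · simp [extz_ge (u 0) (le_refl (N + 1))]
  · simp [extz_ge (u 0) (show N + 1 ≤ r + 1 by omega), extz_ge (u 1) (show N + 1 ≤ r by omega)]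

lemma extz_DV (u : Fin 2 → Fin N → ℚ) (i : Fin 2) (q : ℕ) :
    extz (DV u i) q
      = opF N 0 i (extz (u 0)) q + opF N 1 i (extz (u 1)) q + extz (u i) q := by
  simp [DV, Fin.sum_univ_two, extz_opV]

lemma eq_of_extz {f g : Fin N → ℚ} (h : ∀ q : ℕ, extz f q = extz g q) : f = g := by
  funext q; rw [← extz_apply f, ← extz_apply g, h]

lemma curlV_iotaV (f : Fin N → ℚ) : curlV N (iotaV N f) = ((N : ℚ) + 1) • f := by
  refine eq_of_extz fun q => ?_
  simp [extz_curlV, extz_iotaV, prv]
  ring

lemma DV_iotaV (f : Fin N → ℚ) : DV (iotaV N f) = 0 := by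
  funext i
  refine eq_of_extz fun q => ?_
  rcases q with _ | q <;> fin_cases i <;>
    simp [extz_DV, extz_iotaV, opF, prv, show ∀ r, extz (0 : Fin (N + 1) → ℚ) r = 0 by
      intro r; simp [extz]] <;> ring

lemma curlV_DV (u : Fin 2 → Fin (N + 1) → ℚ) : curlV N (DV u) = 0 := by
  refine eq_of_extz fun q => ?_
  rcases q with _ | q <;>
    simp [extz_curlV, extz_DV, opF, prv, show ∀ r, extz (0 : Fin N → ℚ) r = 0 by
      intro r; simp [extz]] <;> ring

lemma DV_decomp (u : Fin 2 → Fin (N + 1) → ℚ) :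
    ((N : ℚ) + 1) • u = DV u + iotaV N (curlV N u) := by
  funext i
  refine eq_of_extz fun q => ?_
  rcases q with _ | q <;> fin_cases i <;>
    simp [extz_curlV, extz_DV, extz_iotaV, opF, prv] <;> ring

/-- The shifted action on pairs of forms. -/
def psiV (N : ℕ) (u : UG) (v : Fin 2 → Fin N → ℚ) : Fin 2 → Fin N → ℚ :=
  fun i => ∑ j, actV N (psi u i j) (v j)

lemma psiV_add (x y : UG) (v : Fin 2 → Fin N → ℚ) :
    psiV N (x + y) v = psiV N x v + psiV N y v := by
  funext i; simp [psiV, actV_add, Finset.sum_add_distrib]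

lemma psiV_mul (x y : UG) (v : Fin 2 → Fin N → ℚ) :
    psiV N (x * y) v = psiV N x (psiV N y v) := by
  funext i
  simp only [psiV, map_mul, Matrix.mul_apply, Fin.sum_univ_two, actV_add, actV_mul, actV_add_vec]
  abel

lemma psiV_gE (a b : Fin 2) (v : Fin 2 → Fin N → ℚ) (i : Fin 2) :
    psiV N (gE a b) v i = opV N a b (v i) + ∑ j, (rho2 a b : Matrix (Fin 2) (Fin 2) ℚ) i j • v j := by
  simp only [psiV, psi, liftRep_gE, psiGen, Fin.sum_univ_two]
  have h1 : ∀ w, actV N (-1) w = -w := fun w => by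
    simp [actV, Matrix.neg_mulVec]
  have h0 : ∀ w, actV N 0 w = 0 := fun w => by simp [actV]
  fin_cases a <;> fin_cases b <;> fin_cases i <;>
    simp [rho2, actV_add, actV_one, actV_gE, h0, h1] <;> (try abel)

lemma curlV_psiGen (a b : Fin 2) (v : Fin 2 → Fin (N + 1) → ℚ) :
    curlV N (psiV (N + 1) (gE a b) v) = actV N (gE a b) (curlV N v) := by
  have e : psiV (N + 1) (gE a b) v
      = fun i => opV (N + 1) a b (v i)
          + ∑ j, (rho2 a b : Matrix (Fin 2) (Fin 2) ℚ) i j • v j := funext (psiV_gE a b v)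
  rw [e, actV_gE]
  refine eq_of_extz fun q => ?_
  rcases q with _ | q <;> fin_cases a <;> fin_cases b <;>
    simp [extz_curlV, extz_opV, opF, prv, rho2, Fin.sum_univ_two] <;> ring

lemma curlV_psi (u : UG) : ∀ v : Fin 2 → Fin (N + 1) → ℚ,
    curlV N (psiV (N + 1) u v) = actV N u (curlV N v) := by
  induction u using gE_induction with
  | hc r =>
    intro v
    have e : psiV (N + 1) (algebraMap ℚ UG r) v = r • v := by
      funext i
      fin_cases i <;>
        simp [psiV, Algebra.algebraMap_eq_smul_one, Fin.sum_univ_two, actV, Matrix.smul_mulVec]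
    rw [e, map_smul]
    simp [actV, Algebra.algebraMap_eq_smul_one, Matrix.smul_mulVec]
  | hg a b => exact curlV_psiGen a b
  | hadd x y hx hy => intro v; rw [psiV_add, map_add, hx, hy, actV_add]
  | hmul x y hx hy => intro v; rw [psiV_mul, hx, hy, actV_mul]

end

end Vale.Agent.P176
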